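import Vale.Agent.P042.MathlibUsed
import Vale.Agent.P042.Defs
import Vale.Agent.P042.Bdl.B1

/-! Means of periodic functions on the integers. -/

namespace Vale.Agent.P042.PS748

open Finset

/-- `f` is periodic with period `L` -/
def Per (L : ℕ) (f : ℤ → ℂ) : Prop := ∀ x : ℤ, f (x + L) = f x

/-- mean over `0, …, L - 1` -/
noncomputable def mn (L : ℕ) (f : ℤ → ℂ) : ℂ := (∑ x ∈ range L, f (x : ℤ)) / L

lemma Per.mul_int {L : ℕ} {f : ℤ → ℂ} (h : Per L f) (x n : ℤ) : f (x + n * L) = f x := by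
  have hp : Function.Periodic f (L : ℤ) := h
  have := hp.int_mul n x
  simpa using this

lemma Per.congr {L : ℕ} {f : ℤ → ℂ} (h : Per L f) {x y : ℤ} (hxy : (L : ℤ) ∣ x - y) : f x = f y := by
  obtain ⟨n, hn⟩ := hxy
  have : x = y + n * L := by linear_combination hn
  rw [this, h.mul_int]

lemma Per.dvd {L M : ℕ} {f : ℤ → ℂ} (h : Per L f) (hLM : L ∣ M) : Per M f := by
  obtain ⟨c, rfl⟩ := hLM
  intro x
  apply h.congr
  push_cast
  exact ⟨c, by ring⟩

lemma Per.mul {L : ℕ} {f g : ℤ → ℂ} (hf : Per L f) (hg : Per L g) : Per L (fun x => f x * g x) := by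
  intro x
  simp only [hf x, hg x]

lemma Per.prod {ι : Type*} {L : ℕ} (s : Finset ι) (f : ι → ℤ → ℂ) (h : ∀ i ∈ s, Per L (f i)) :
    Per L (fun x => ∏ i ∈ s, f i x) := by
  intro x
  exact Finset.prod_congr rfl fun i hi => h i hi x

lemma sum_zmod {L : ℕ} [NeZero L] (f : ℤ → ℂ) :
    ∑ x ∈ range L, f (x : ℤ) = ∑ z : ZMod L, f ((z.val : ℕ) : ℤ) := by
  refine Finset.sum_bij' (fun x _ => (x : ZMod L)) (fun x _ => x.val) ?_ ?_ ?_ ?_ ?_
  · intro x _; exact mem_univ _
  · intro x _; rw [Finset.mem_range]; exact ZMod.val_lt x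
  · intro x hx
    rw [Finset.mem_range] at hx
    exact ZMod.val_cast_of_lt hx
  · intro x _; exact ZMod.natCast_zmod_val x
  · intro x hx
    rw [Finset.mem_range] at hx
    rw [ZMod.val_cast_of_lt hx]

lemma val_congr {L : ℕ} [NeZero L] {f : ℤ → ℂ} (h : Per L f) (x : ℤ) :
    f ((((x : ZMod L)).val : ℕ) : ℤ) = f x := by
  apply h.congr
  rw [← ZMod.intCast_zmod_eq_zero_iff_dvd]
  push_cast
  rw [ZMod.natCast_zmod_val, sub_self]

/-- affine substitutions do not change complete sums -/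
lemma sum_affine {L : ℕ} [NeZero L] {f : ℤ → ℂ} (h : Per L f) (c m : ℤ) (hm : IsCoprime m (L : ℤ)) :
    ∑ x ∈ range L, f (c + m * (x : ℤ)) = ∑ x ∈ range L, f (x : ℤ) := by
  have h2 : Per L (fun x => f (c + m * x)) := by
    intro x
    apply h.congr
    exact ⟨m, by ring⟩
  rw [sum_zmod (fun x => f (c + m * x)), sum_zmod f]
  obtain ⟨u, v, huv⟩ := hm
  have hu : (u : ZMod L) * m = 1 := by
    have := congrArg (fun z : ℤ => (z : ZMod L)) huv
    simpa using this
  let e : ZMod L ≃ ZMod L :=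
    { toFun := fun z => (c : ZMod L) + m * z
      invFun := fun z => u * (z - c)
      left_inv := by intro z; simp only [add_sub_cancel_left]; rw [← mul_assoc, hu, one_mul]
      right_inv := by
        intro z
        have : (m : ZMod L) * (u * (z - c)) = z - c := by
          rw [← mul_assoc, mul_comm (m : ZMod L) u, hu, one_mul]
        simp only [this, add_sub_cancel] }
  refine Fintype.sum_equiv e _ _ fun z => ?_
  apply h.congr
  rw [← ZMod.intCast_zmod_eq_zero_iff_dvd]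
  push_cast
  rw [ZMod.natCast_zmod_val, ZMod.natCast_zmod_val]
  simp [e]

lemma sum_mul_range (L M : ℕ) (f : ℤ → ℂ) :
    ∑ x ∈ range (L * M), f (x : ℤ) = ∑ j ∈ range M, ∑ i ∈ range L, f ((i : ℤ) + L * j) := by
  induction M with
  | zero => simp
  | succ M ih =>
    rw [Nat.mul_succ, Finset.sum_range_add, ih, Finset.sum_range_succ]
    congr 1
    apply Finset.sum_congr rfl
    intro i _
    congr 1
    push_cast
    ring

lemma mn_mul {L M : ℕ} (hL : 1 ≤ L) (hM : 1 ≤ M) {f : ℤ → ℂ} (h : Per L f) : mn (L * M) f = mn L f := by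
  unfold mn
  rw [sum_mul_range]
  have h1 : ∀ j ∈ range M, ∑ i ∈ range L, f ((i : ℤ) + L * j) = ∑ i ∈ range L, f (i : ℤ) := by
    intro j _
    apply Finset.sum_congr rfl
    intro i _
    apply h.congr
    exact ⟨j, by ring⟩
  rw [Finset.sum_congr rfl h1, Finset.sum_const, card_range, nsmul_eq_mul]
  have hL' : (L : ℂ) ≠ 0 := by exact_mod_cast (by omega : L ≠ 0)
  have hM' : (M : ℂ) ≠ 0 := by exact_mod_cast (by omega : M ≠ 0)
  push_cast
  field_simp

lemma mn_dvd {L M : ℕ} (hM : 1 ≤ M) (hLM : L ∣ M) {f : ℤ → ℂ} (h : Per L f) :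
    mn M f = mn L f := by
  obtain ⟨c, rfl⟩ := hLM
  have hL : 1 ≤ L := Nat.pos_of_ne_zero (by rintro rfl; simp at hM)
  have hc : 1 ≤ c := Nat.pos_of_ne_zero (by rintro rfl; simp at hM)
  exact mn_mul hL hc h

/-- Chinese remainder theorem for means -/
lemma mn_coprime {L M : ℕ} (hL : 1 ≤ L) (hM : 1 ≤ M) (hc : L.Coprime M) {f g : ℤ → ℂ}
    (hf : Per L f) (hg : Per M g) : mn (L * M) (fun x => f x * g x) = mn L f * mn M g := by
  have : NeZero M := ⟨by omega⟩
  unfold mn
  rw [sum_mul_range L M (fun x => f x * g x)]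
  have h1 : ∑ j ∈ range M, ∑ i ∈ range L, (fun x => f x * g x) ((i : ℤ) + L * j) =
      ∑ i ∈ range L, f (i : ℤ) * ∑ j ∈ range M, g ((i : ℤ) + L * j) := by
    rw [Finset.sum_comm]
    apply Finset.sum_congr rfl
    intro i _
    rw [Finset.mul_sum]
    apply Finset.sum_congr rfl
    intro j _
    show f _ * g _ = f _ * g _
    congr 1
    apply hf.congr
    exact ⟨j, by ring⟩
  rw [h1]
  have h2 : ∀ i ∈ range L, f (i : ℤ) * ∑ j ∈ range M, g ((i : ℤ) + L * j) =
      f (i : ℤ) * ∑ j ∈ range M, g (j : ℤ) := by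
    intro i _
    rw [sum_affine hg (i : ℤ) (L : ℤ) (Nat.isCoprime_iff_coprime.2 hc)]
  rw [Finset.sum_congr rfl h2, ← Finset.sum_mul]
  push_cast
  rw [mul_div_mul_comm]

/-- Chinese remainder theorem for means, several moduli -/
lemma mn_prod {ι : Type*} [DecidableEq ι] (s : Finset ι) (L : ι → ℕ) (f : ι → ℤ → ℂ)
    (hL : ∀ i ∈ s, 1 ≤ L i) (hc : ∀ i ∈ s, ∀ j ∈ s, i ≠ j → (L i).Coprime (L j))
    (hf : ∀ i ∈ s, Per (L i) (f i)) :
    mn (∏ i ∈ s, L i) (fun x => ∏ i ∈ s, f i x) = ∏ i ∈ s, mn (L i) (f i) := by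
  induction s using Finset.induction_on with
  | empty => simp [mn]
  | insert a s ha ih =>
    have h1 : ∀ i ∈ s, 1 ≤ L i := fun i hi => hL i (mem_insert_of_mem hi)
    have h2 : ∀ i ∈ s, ∀ j ∈ s, i ≠ j → (L i).Coprime (L j) := fun i hi j hj =>
      hc i (mem_insert_of_mem hi) j (mem_insert_of_mem hj)
    have h3 : ∀ i ∈ s, Per (L i) (f i) := fun i hi => hf i (mem_insert_of_mem hi)
    rw [Finset.prod_insert ha, Finset.prod_insert ha, ← ih h1 h2 h3]
    have h4 : (L a).Coprime (∏ i ∈ s, L i) := by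
      apply Nat.Coprime.prod_right
      intro i hi
      exact hc a (mem_insert_self _ _) i (mem_insert_of_mem hi) (by rintro rfl; exact ha hi)
    have h5 : Per (∏ i ∈ s, L i) (fun x => ∏ i ∈ s, f i x) :=
      Per.prod s f fun i hi => (h3 i hi).dvd (Finset.dvd_prod_of_mem L hi)
    rw [← mn_coprime (hL a (mem_insert_self _ _)) (Finset.one_le_prod' h1) h4
      (hf a (mem_insert_self _ _)) h5]
    congr 1
    funext x
    rw [Finset.prod_insert ha]

end Vale.Agent.P042.PS748
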