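import Mathlib.Data.Finset.NatDivisors
import Vale.Agent.P042.PS748.A1

/-! Partial fractions and sums over divisors. -/

namespace Vale.Agent.P042.PS748

open Finset

/-- partial fractions -/
lemma exists_pf (q : ℕ) : 1 ≤ q → ∀ a : ℤ, ∃ b : ℕ → ℤ,
    (IsCoprime a (q : ℤ) → ∀ p ∈ q.primeFactors, IsCoprime (b p) (p : ℤ)) ∧
    ∀ t : ℤ, e (a * t / q) = ∏ p ∈ q.primeFactors, e (b p * t / (p : ℝ) ^ (q.factorization p)) := by
  induction q using Nat.recOnPosPrimePosCoprime with
  | zero => intro h; omega
  | one =>
    intro _ a
    refine ⟨fun _ => 0, by simp, fun t => ?_⟩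
    simp only [Nat.primeFactors_one, Finset.prod_empty, Nat.cast_one, div_one]
    have := e_int (a * t)
    push_cast at this
    exact this
  | prime_pow p j hp hj =>
    intro _ a
    refine ⟨fun _ => a, ?_, fun t => ?_⟩
    · intro ha r hr
      rw [Nat.primeFactors_prime_pow (by omega) hp, Finset.mem_singleton] at hr
      subst hr
      apply ha.of_isCoprime_of_dvd_right
      push_cast
      exact dvd_pow_self _ (by omega)
    · rw [Nat.primeFactors_prime_pow (by omega) hp, Finset.prod_singleton, hp.factorization_pow,
        Finsupp.single_eq_same]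
      push_cast
      rfl
  | coprime q1 q2 h1 h2 hc ih1 ih2 =>
    intro _ a
    have hcz : IsCoprime (q1 : ℤ) (q2 : ℤ) := Nat.isCoprime_iff_coprime.2 hc
    obtain ⟨u2, u1, hu⟩ := hcz
    obtain ⟨b1, hb1, hb1'⟩ := ih1 (by omega) (a * u1)
    obtain ⟨b2, hb2, hb2'⟩ := ih2 (by omega) (a * u2)
    have hdisj := hc.disjoint_primeFactors
    have hu1 : IsCoprime u1 (q1 : ℤ) := ⟨q2, u2, by linear_combination hu⟩
    have hu2 : IsCoprime u2 (q2 : ℤ) := ⟨q1, u1, by linear_combination hu⟩
    have hf1 : ∀ p ∈ q1.primeFactors, (q1 * q2).factorization p = q1.factorization p := by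
      intro p hp
      rw [Nat.factorization_mul_apply_of_coprime hc]
      have : q2.factorization p = 0 := by
        rw [Nat.factorization_eq_zero_iff]
        right; left
        intro hd
        exact Finset.disjoint_left.1 hdisj hp
          (Nat.mem_primeFactors.2 ⟨Nat.prime_of_mem_primeFactors hp, hd, by omega⟩)
      rw [this, add_zero]
    have hf2 : ∀ p ∈ q2.primeFactors, (q1 * q2).factorization p = q2.factorization p := by
      intro p hp
      rw [Nat.factorization_mul_apply_of_coprime hc]
      have : q1.factorization p = 0 := by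
        rw [Nat.factorization_eq_zero_iff]
        right; left
        intro hd
        exact Finset.disjoint_left.1 hdisj
          (Nat.mem_primeFactors.2 ⟨Nat.prime_of_mem_primeFactors hp, hd, by omega⟩) hp
      rw [this, zero_add]
    refine ⟨fun p => if p ∈ q1.primeFactors then b1 p else b2 p, ?_, fun t => ?_⟩
    · intro ha p hp
      have ha1 : IsCoprime a (q1 : ℤ) := by
        apply ha.of_isCoprime_of_dvd_right; push_cast; exact dvd_mul_right _ _
      have ha2 : IsCoprime a (q2 : ℤ) := by
        apply ha.of_isCoprime_of_dvd_right; push_cast; exact dvd_mul_left _ _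
      rw [hc.primeFactors_mul, Finset.mem_union] at hp
      by_cases h : p ∈ q1.primeFactors
      · simp only [h, if_true]
        exact hb1 (ha1.mul_left hu1) p h
      · simp only [h, if_false]
        exact hb2 (ha2.mul_left hu2) p (hp.resolve_left h)
    · rw [hc.primeFactors_mul, Finset.prod_union hdisj]
      have e1 : ∏ p ∈ q1.primeFactors, e (((if p ∈ q1.primeFactors then b1 p else b2 p : ℤ) : ℝ) * t /
          (p : ℝ) ^ ((q1 * q2).factorization p)) = e ((a * u1 : ℤ) * t / q1) := by
        rw [hb1']
        refine Finset.prod_congr rfl fun p hp => ?_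
        rw [if_pos hp, hf1 p hp]
      have e2 : ∏ p ∈ q2.primeFactors, e (((if p ∈ q1.primeFactors then b1 p else b2 p : ℤ) : ℝ) * t /
          (p : ℝ) ^ ((q1 * q2).factorization p)) = e ((a * u2 : ℤ) * t / q2) := by
        rw [hb2']
        refine Finset.prod_congr rfl fun p hp => ?_
        rw [if_neg (fun h => Finset.disjoint_left.1 hdisj h hp), hf2 p hp]
      rw [e1, e2, ← e_add]
      congr 1
      have hq1 : (q1 : ℝ) ≠ 0 := by exact_mod_cast (by omega : q1 ≠ 0)
      have hq2 : (q2 : ℝ) ≠ 0 := by exact_mod_cast (by omega : q2 ≠ 0)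
      have hu' : (u2 : ℝ) * q1 + u1 * q2 = 1 := by exact_mod_cast hu
      push_cast
      field_simp
      linear_combination (-(a : ℝ)) * t * hu'

/-- sums over divisors of products of local functions -/
lemma sum_divisors_prod {R : Type*} [CommSemiring R] (β : ℕ → ℕ → R) (M : ℕ) : 1 ≤ M →
    ∑ n ∈ M.divisors, ∏ p ∈ M.primeFactors, β p (n.factorization p) =
      ∏ p ∈ M.primeFactors, ∑ i ∈ range (M.factorization p + 1), β p i := by
  induction M using Nat.recOnPosPrimePosCoprime with
  | zero => intro h; omega
  | one => intro _; simp
  | prime_pow p j hp hj =>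
    intro _
    rw [Nat.primeFactors_prime_pow (by omega) hp, Finset.prod_singleton, hp.factorization_pow,
      Finsupp.single_eq_same, Nat.sum_divisors_prime_pow hp]
    refine Finset.sum_congr rfl fun i _ => ?_
    rw [Finset.prod_singleton, hp.factorization_pow, Finsupp.single_eq_same]
  | coprime a b h1 h2 hc iha ihb =>
    intro _
    have hdisj := hc.disjoint_primeFactors
    have hdm : (a * b).divisors = (a.divisors ×ˢ b.divisors).image (fun x => x.1 * x.2) := by
      rw [Nat.divisors_mul, Finset.mul_def]
    rw [hdm, Finset.sum_image hc.mul_injOn_divisors, Finset.sum_product, hc.primeFactors_mul,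
      Finset.prod_union hdisj]
    have hfa : ∀ p ∈ a.primeFactors, (a * b).factorization p = a.factorization p := by
      intro p hp
      rw [Nat.factorization_mul_apply_of_coprime hc]
      have : b.factorization p = 0 := by
        rw [Nat.factorization_eq_zero_iff]
        right; left
        intro hd
        exact Finset.disjoint_left.1 hdisj hp
          (Nat.mem_primeFactors.2 ⟨Nat.prime_of_mem_primeFactors hp, hd, by omega⟩)
      rw [this, add_zero]
    have hfb : ∀ p ∈ b.primeFactors, (a * b).factorization p = b.factorization p := by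
      intro p hp
      rw [Nat.factorization_mul_apply_of_coprime hc]
      have : a.factorization p = 0 := by
        rw [Nat.factorization_eq_zero_iff]
        right; left
        intro hd
        exact Finset.disjoint_left.1 hdisj
          (Nat.mem_primeFactors.2 ⟨Nat.prime_of_mem_primeFactors hp, hd, by omega⟩) hp
      rw [this, zero_add]
    have e1 : ∏ p ∈ a.primeFactors, ∑ i ∈ range ((a * b).factorization p + 1), β p i =
        ∏ p ∈ a.primeFactors, ∑ i ∈ range (a.factorization p + 1), β p i :=
      Finset.prod_congr rfl fun p hp => by rw [hfa p hp]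
    have e2 : ∏ p ∈ b.primeFactors, ∑ i ∈ range ((a * b).factorization p + 1), β p i =
        ∏ p ∈ b.primeFactors, ∑ i ∈ range (b.factorization p + 1), β p i :=
      Finset.prod_congr rfl fun p hp => by rw [hfb p hp]
    rw [e1, e2, ← iha (by omega), ← ihb (by omega), Finset.sum_mul_sum]
    refine Finset.sum_congr rfl fun m hm => Finset.sum_congr rfl fun n hn => ?_
    rw [Nat.mem_divisors] at hm hn
    have hm0 : m ≠ 0 := by rintro rfl; simp at hm
    have hn0 : n ≠ 0 := by rintro rfl; simp at hn
    have hcmn : m.Coprime n := (hc.coprime_dvd_left hm.1).coprime_dvd_right hn.1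
    rw [Finset.prod_union hdisj]
    congr 1
    · refine Finset.prod_congr rfl fun p hp => ?_
      rw [Nat.factorization_mul_apply_of_coprime hcmn]
      have : n.factorization p = 0 := by
        rw [Nat.factorization_eq_zero_iff]
        right; left
        intro hd
        exact Finset.disjoint_left.1 hdisj hp
          (Nat.mem_primeFactors.2 ⟨Nat.prime_of_mem_primeFactors hp, hd.trans hn.1, by omega⟩)
      rw [this, add_zero]
    · refine Finset.prod_congr rfl fun p hp => ?_
      rw [Nat.factorization_mul_apply_of_coprime hcmn]
      have : m.factorization p = 0 := by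
        rw [Nat.factorization_eq_zero_iff]
        right; left
        intro hd
        exact Finset.disjoint_left.1 hdisj
          (Nat.mem_primeFactors.2 ⟨Nat.prime_of_mem_primeFactors hp, hd.trans hm.1, by omega⟩) hp
      rw [this, zero_add]

end Vale.Agent.P042.PS748
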