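import Vale.Agent.P042.PS748.A2

/-! The truncated sum of local weights. -/

namespace Vale.Agent.P042.PS748

open Finset Polynomial

/-- product of local weights -/
noncomputable def un (v : ℕ → ℕ → ℤ → ℝ) (n : ℕ) (x : ℤ) : ℝ :=
  ∏ p ∈ n.primeFactors, v p (n.factorization p) x

/-- local mean -/
noncomputable def bet (h : ℤ[X]) (v : ℕ → ℕ → ℤ → ℝ) (p i j : ℕ) (b : ℤ) : ℂ :=
  mn (p ^ (i + j)) (fun x => (v p i x : ℂ) * e (b * ((h.eval x : ℤ) : ℝ) / (p : ℝ) ^ j))

/-- `F_Q(a/q)` -/
noncomputable def FQ (h : ℤ[X]) (u : ℕ → ℤ → ℝ) (Q q : ℕ) (a : ℤ) : ℂ :=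
  ∑ n ∈ Icc 1 Q, mn (n * q) (fun x => (u n x : ℂ) * e (a * ((h.eval x : ℤ) : ℝ) / q))

lemma per_e (h : ℤ[X]) (b : ℤ) (q : ℕ) (hq : 1 ≤ q) :
    Per q (fun x => e (b * ((h.eval x : ℤ) : ℝ) / (q : ℝ))) := by
  intro x
  have := e_eval_periodic h b q hq x 1
  rw [mul_one, add_comm] at this
  exact this

lemma per_ofReal {L : ℕ} {v : ℤ → ℝ} (hv : ∀ x, v (x + L) = v x) : Per L (fun x => (v x : ℂ)) := by
  intro x
  simp only [hv x]

lemma un_term (h : ℤ[X]) (v : ℕ → ℕ → ℤ → ℝ) (hv0 : ∀ p x, v p 0 x = 1)
    (hper : ∀ p i x, p.Prime → v p i (x + (p ^ i : ℕ)) = v p i x) (n q : ℕ) (hn : 1 ≤ n)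
    (hq : 1 ≤ q) (a : ℤ) (b : ℕ → ℤ)
    (hb : ∀ t : ℤ, e (a * t / q) = ∏ p ∈ q.primeFactors, e (b p * t / (p : ℝ) ^ (q.factorization p))) :
    mn (n * q) (fun x => (un v n x : ℂ) * e (a * ((h.eval x : ℤ) : ℝ) / q)) =
      ∏ p ∈ (n * q).primeFactors, bet h v p (n.factorization p) (q.factorization p) (b p) := by
  have hnq : n * q ≠ 0 := Nat.mul_ne_zero (by omega) (by omega)
  have hpp : ∀ p ∈ (n * q).primeFactors, p.Prime := fun p hp => Nat.prime_of_mem_primeFactors hp
  have hLprod : ∏ p ∈ (n * q).primeFactors, p ^ (n.factorization p + q.factorization p) = n * q := by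
    conv_rhs => rw [← Nat.prod_factorization_pow_eq_self hnq]
    rw [Finsupp.prod, Nat.support_factorization]
    refine Finset.prod_congr rfl fun p _ => ?_
    rw [Nat.factorization_mul (by omega) (by omega)]
    rfl
  have hfun : (fun x : ℤ => (un v n x : ℂ) * e (a * ((h.eval x : ℤ) : ℝ) / q)) =
      fun x => ∏ p ∈ (n * q).primeFactors, ((v p (n.factorization p) x : ℂ) *
        e (b p * ((h.eval x : ℤ) : ℝ) / (p : ℝ) ^ (q.factorization p))) := by
    funext x
    rw [Finset.prod_mul_distrib]
    congr 1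
    · unfold un
      push_cast
      refine Finset.prod_subset ?_ ?_
      · rw [Nat.primeFactors_mul (by omega) (by omega)]
        exact Finset.subset_union_left
      · intro p hp hpn
        have : n.factorization p = 0 := by
          rw [← Finsupp.notMem_support_iff, Nat.support_factorization]
          exact hpn
        rw [this, hv0, Complex.ofReal_one]
    · have h1 := hb (h.eval x)
      rw [h1]
      refine Finset.prod_subset ?_ ?_
      · rw [Nat.primeFactors_mul (by omega) (by omega)]
        exact Finset.subset_union_right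
      · intro p hp hpq
        have : q.factorization p = 0 := by
          rw [← Finsupp.notMem_support_iff, Nat.support_factorization]
          exact hpq
        rw [this, pow_zero, div_one]
        have h2 := e_int (b p * h.eval x)
        push_cast at h2
        exact h2
  rw [hfun]
  have key := mn_prod (n * q).primeFactors (fun p => p ^ (n.factorization p + q.factorization p))
    (fun p x => ((v p (n.factorization p) x : ℂ) *
        e (b p * ((h.eval x : ℤ) : ℝ) / (p : ℝ) ^ (q.factorization p))))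
    (fun p hp => Nat.one_le_pow _ _ (hpp p hp).pos)
    (fun p hp r hr hpr => Nat.coprime_pow_primes _ _ (hpp p hp) (hpp r hr) hpr) ?_
  · rw [hLprod] at key
    exact key
  · intro p hp
    apply Per.mul
    · apply Per.dvd (L := p ^ (n.factorization p)) _ (pow_dvd_pow p (by omega))
      exact per_ofReal fun x => hper p _ x (hpp p hp)
    · apply Per.dvd (L := p ^ (q.factorization p)) _ (pow_dvd_pow p (by omega))
      have := per_e h (b p) (p ^ (q.factorization p)) (Nat.one_le_pow _ _ (hpp p hp).pos)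
      push_cast at this
      exact this

end Vale.Agent.P042.PS748
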