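import Vale.Agent.P042.PS748.A3

/-! Lower bound for the truncated sum of local weights. -/

namespace Vale.Agent.P042.PS748

open Finset Polynomial

lemma pow_divisor {q Q T n : ℕ} (hq : 1 ≤ q) (hQT : Q ≤ T) (hn1 : 1 ≤ n) (hnQ : n ≤ Q)
    (hsub : n.primeFactors ⊆ q.primeFactors) : n ∣ q ^ T := by
  rw [← Nat.factorization_le_iff_dvd (by omega) (pow_ne_zero _ (by omega))]
  intro p
  rw [Nat.factorization_pow]
  by_cases hp : p ∈ n.primeFactors
  · have h1 : 1 ≤ q.factorization p := by
      have h2 := hsub hp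
      rw [← Nat.support_factorization, Finsupp.mem_support_iff] at h2
      omega
    have h3 : n.factorization p < n := Nat.factorization_lt p (by omega)
    simp only [Finsupp.coe_smul, Pi.smul_apply, smul_eq_mul]
    calc n.factorization p ≤ T := by omega
      _ = T * 1 := (mul_one T).symm
      _ ≤ T * q.factorization p := Nat.mul_le_mul_left T h1
  · rw [← Nat.support_factorization, Finsupp.notMem_support_iff] at hp
    rw [hp]
    exact Nat.zero_le _

/-- **Arithmetic part.** -/
theorem FQ_lower (h : ℤ[X]) (v : ℕ → ℕ → ℤ → ℝ) (hv0 : ∀ p x, v p 0 x = 1)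
    (hper : ∀ p i x, p.Prime → v p i (x + (p ^ i : ℕ)) = v p i x)
    (hmean : ∀ (p i : ℕ) (b : ℤ), p.Prime → 1 ≤ i → bet h v p i 0 b = 0)
    (i0 : ℕ)
    (hpos : ∀ (p j : ℕ) (b : ℤ) (I : ℕ), p.Prime → 1 ≤ j → IsCoprime b (p : ℤ) → j + i0 ≤ I →
      0 ≤ (∑ i ∈ range (I + 1), bet h v p i j b).re ∧ (∑ i ∈ range (I + 1), bet h v p i j b).im = 0)
    (c : ℝ) (hc : 0 < c) (P1 : ℕ) (Φ : ℝ) (hΦ : 1 ≤ Φ)
    (hsum : ∀ (p j : ℕ) (b : ℤ) (I : ℕ), p.Prime → 1 ≤ j → IsCoprime b (p : ℤ) →
      ∑ i ∈ range (I + 1), (p : ℝ) ^ (c * i) * ‖bet h v p i j b‖ ≤ Φ)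
    (hsum1 : ∀ (p j : ℕ) (b : ℤ) (I : ℕ), p.Prime → P1 ≤ p → 1 ≤ j → IsCoprime b (p : ℤ) →
      ∑ i ∈ range (I + 1), (p : ℝ) ^ (c * i) * ‖bet h v p i j b‖ ≤ 1)
    (Q q : ℕ) (a : ℤ) (hQ : 1 ≤ Q) (hq : 1 ≤ q) (ha : IsCoprime a (q : ℤ)) :
    -(Φ ^ P1 * (Q : ℝ) ^ (-c)) ≤ (FQ h (un v) Q q a).re ∧
      |(FQ h (un v) Q q a).im| ≤ Φ ^ P1 * (Q : ℝ) ^ (-c) := by
  classical
  obtain ⟨b, hbc, hb⟩ := exists_pf q hq a
  have hbc := hbc ha
  set T := Q + i0 + 1 with hT
  set M := q ^ T with hM
  have hM0 : M ≠ 0 := pow_ne_zero _ (by omega)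
  have hMpf : M.primeFactors = q.primeFactors := Nat.primeFactors_pow _ (by omega)
  have hMfac : ∀ p, M.factorization p = T * q.factorization p := by
    intro p
    rw [hM, Nat.factorization_pow]
    simp
  set S : ℕ → ℂ := fun n => ∏ p ∈ q.primeFactors, bet h v p (n.factorization p) (q.factorization p) (b p)
    with hS
  have hpr : ∀ p ∈ q.primeFactors, p.Prime := fun p hp => Nat.prime_of_mem_primeFactors hp
  have hj : ∀ p ∈ q.primeFactors, 1 ≤ q.factorization p := by
    intro p hp
    rw [← Nat.support_factorization, Finsupp.mem_support_iff] at hp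
    omega
  -- Claim 1
  have c1 : FQ h (un v) Q q a = ∑ n ∈ M.divisors.filter (fun n => n ≤ Q), S n := by
    unfold FQ
    have h1 : ∀ n ∈ Icc 1 Q, mn (n * q) (fun x => (un v n x : ℂ) * e (a * ((h.eval x : ℤ) : ℝ) / q)) =
        if n.primeFactors ⊆ q.primeFactors then S n else 0 := by
      intro n hn
      rw [Finset.mem_Icc] at hn
      rw [un_term h v hv0 hper n q hn.1 hq a b hb]
      split_ifs with hsub
      · rw [Nat.primeFactors_mul (by omega) (by omega), Finset.union_eq_right.2 hsub]
      · rw [Finset.not_subset] at hsub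
        obtain ⟨p, hp1, hp2⟩ := hsub
        apply Finset.prod_eq_zero (i := p)
        · rw [Nat.primeFactors_mul (by omega) (by omega)]
          exact Finset.mem_union_left _ hp1
        · have h2 : q.factorization p = 0 := by
            rw [← Finsupp.notMem_support_iff, Nat.support_factorization]
            exact hp2
          have h3 : 1 ≤ n.factorization p := by
            rw [← Nat.support_factorization, Finsupp.mem_support_iff] at hp1
            omega
          rw [h2]
          exact hmean p _ _ (Nat.prime_of_mem_primeFactors hp1) h3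
    rw [Finset.sum_congr rfl h1, ← Finset.sum_filter]
    refine Finset.sum_congr ?_ fun _ _ => rfl
    ext n
    simp only [Finset.mem_filter, Finset.mem_Icc, Nat.mem_divisors]
    constructor
    · rintro ⟨⟨hn1, hnQ⟩, hsub⟩
      exact ⟨⟨pow_divisor hq (by omega) hn1 hnQ hsub, hM0⟩, hnQ⟩
    · rintro ⟨⟨hd, -⟩, hnQ⟩
      refine ⟨⟨Nat.pos_of_dvd_of_pos hd (by omega), hnQ⟩, ?_⟩
      rw [← hMpf]
      exact Nat.primeFactors_mono hd hM0
  -- Claim 2
  have c2 : ∑ n ∈ M.divisors, S n = ∏ p ∈ q.primeFactors,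
      ∑ i ∈ range (T * q.factorization p + 1), bet h v p i (q.factorization p) (b p) := by
    have h1 := sum_divisors_prod (fun p i => bet h v p i (q.factorization p) (b p)) M (by omega)
    rw [hMpf] at h1
    rw [hS]
    simp only
    rw [h1]
    refine Finset.prod_congr rfl fun p _ => ?_
    rw [hMfac]
  have hTj : ∀ p ∈ q.primeFactors, q.factorization p + i0 ≤ T * q.factorization p := by
    intro p hp
    have h1 := hj p hp
    obtain ⟨w, hw⟩ : ∃ w, q.factorization p = w + 1 := ⟨q.factorization p - 1, by omega⟩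
    rw [hw, hT]
    nlinarith
  have c2' : 0 ≤ (∑ n ∈ M.divisors, S n).re ∧ (∑ n ∈ M.divisors, S n).im = 0 := by
    rw [c2]
    have h2 : ∀ s : Finset ℕ, s ⊆ q.primeFactors → 0 ≤ (∏ p ∈ s, ∑ i ∈ range (T * q.factorization p + 1),
        bet h v p i (q.factorization p) (b p)).re ∧ (∏ p ∈ s, ∑ i ∈ range (T * q.factorization p + 1),
        bet h v p i (q.factorization p) (b p)).im = 0 := by
      intro s
      induction s using Finset.induction_on with
      | empty => intro _; simp
      | insert p s hps ih =>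
        intro hsub
        obtain ⟨i1, i2⟩ := ih (fun x hx => hsub (mem_insert_of_mem hx))
        have hp := hsub (mem_insert_self p s)
        obtain ⟨j1, j2⟩ := hpos p (q.factorization p) (b p) (T * q.factorization p) (hpr p hp) (hj p hp)
          (hbc p hp) (hTj p hp)
        rw [Finset.prod_insert hps, Complex.mul_re, Complex.mul_im, i2, j2]
        constructor
        · simp only [mul_zero, sub_zero]
          exact mul_nonneg j1 i1
        · ring
    exact h2 _ subset_rfl
  -- Claim 3
  have hQ0 : (0 : ℝ) < Q := by exact_mod_cast hQ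
  have c3 : ‖∑ n ∈ M.divisors.filter (fun n => ¬ n ≤ Q), S n‖ ≤ Φ ^ P1 * (Q : ℝ) ^ (-c) := by
    have h1 : ∀ n ∈ M.divisors, (n : ℝ) ^ c = ∏ p ∈ q.primeFactors, (p : ℝ) ^ (c * (n.factorization p : ℕ)) := by
      intro n hn
      rw [Nat.mem_divisors] at hn
      have hn0 : n ≠ 0 := by rintro rfl; simp at hn
      have hsub : n.primeFactors ⊆ q.primeFactors := by
        rw [← hMpf]
        exact Nat.primeFactors_mono hn.1 hM0
      have h3 : (n : ℝ) = ∏ p ∈ n.primeFactors, (p : ℝ) ^ (n.factorization p) := by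
        conv_lhs => rw [← Nat.prod_factorization_pow_eq_self hn0]
        rw [Finsupp.prod, Nat.support_factorization]
        push_cast
        rfl
      rw [h3, ← Real.finsetProd_rpow _ _ (fun p _ => by positivity)]
      have h4 : ∏ p ∈ q.primeFactors, (p : ℝ) ^ (c * (n.factorization p : ℕ)) =
          ∏ p ∈ n.primeFactors, (p : ℝ) ^ (c * (n.factorization p : ℕ)) := by
        symm
        refine Finset.prod_subset hsub fun p hp hpn => ?_
        have : n.factorization p = 0 := by
          rw [← Finsupp.notMem_support_iff, Nat.support_factorization]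
          exact hpn
        rw [this]
        simp
      rw [h4]
      refine Finset.prod_congr rfl fun p _ => ?_
      rw [← Real.rpow_natCast, ← Real.rpow_mul (by positivity), mul_comm]
    calc ‖∑ n ∈ M.divisors.filter (fun n => ¬ n ≤ Q), S n‖
        ≤ ∑ n ∈ M.divisors.filter (fun n => ¬ n ≤ Q), ‖S n‖ := norm_sum_le _ _
      _ ≤ ∑ n ∈ M.divisors.filter (fun n => ¬ n ≤ Q), (Q : ℝ) ^ (-c) * ((n : ℝ) ^ c * ‖S n‖) := by
          refine Finset.sum_le_sum fun n hn => ?_
          rw [Finset.mem_filter] at hn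
          have hnQ : (Q : ℝ) ≤ n := by exact_mod_cast (by omega : Q ≤ n)
          have h5 : 1 ≤ (Q : ℝ) ^ (-c) * (n : ℝ) ^ c := by
            rw [Real.rpow_neg hQ0.le, inv_mul_eq_div, one_le_div (by positivity)]
            exact Real.rpow_le_rpow hQ0.le hnQ hc.le
          calc ‖S n‖ = 1 * ‖S n‖ := (one_mul _).symm
            _ ≤ ((Q : ℝ) ^ (-c) * (n : ℝ) ^ c) * ‖S n‖ := by gcongr
            _ = _ := by ring
      _ ≤ ∑ n ∈ M.divisors, (Q : ℝ) ^ (-c) * ((n : ℝ) ^ c * ‖S n‖) := by
          refine Finset.sum_le_sum_of_subset_of_nonneg (Finset.filter_subset _ _) fun n _ _ => ?_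
          positivity
      _ = (Q : ℝ) ^ (-c) * ∑ n ∈ M.divisors, ∏ p ∈ M.primeFactors,
            ((p : ℝ) ^ (c * (n.factorization p : ℕ)) *
              ‖bet h v p (n.factorization p) (q.factorization p) (b p)‖) := by
          rw [← Finset.mul_sum]
          congr 1
          refine Finset.sum_congr rfl fun n hn => ?_
          rw [h1 n hn, hMpf, Finset.prod_mul_distrib, hS]
          simp only
          rw [norm_prod]
      _ = (Q : ℝ) ^ (-c) * ∏ p ∈ q.primeFactors, ∑ i ∈ range (T * q.factorization p + 1),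
            ((p : ℝ) ^ (c * (i : ℕ)) * ‖bet h v p i (q.factorization p) (b p)‖) := by
          congr 1
          have h6 := sum_divisors_prod (fun p i => (p : ℝ) ^ (c * (i : ℕ)) *
            ‖bet h v p i (q.factorization p) (b p)‖) M (by omega)
          rw [h6, hMpf]
          refine Finset.prod_congr rfl fun p _ => ?_
          rw [hMfac]
      _ ≤ (Q : ℝ) ^ (-c) * ∏ p ∈ q.primeFactors, (if p < P1 then Φ else 1) := by
          gcongr with p hp
          split_ifs with hlt
          · exact hsum p _ _ _ (hpr p hp) (hj p hp) (hbc p hp)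
          · exact hsum1 p _ _ _ (hpr p hp) (by omega) (hj p hp) (hbc p hp)
      _ ≤ (Q : ℝ) ^ (-c) * Φ ^ P1 := by
          gcongr
          rw [Finset.prod_ite, Finset.prod_const, Finset.prod_const_one, mul_one]
          apply pow_le_pow_right₀ hΦ
          calc (q.primeFactors.filter (fun p => p < P1)).card ≤ (Finset.range P1).card := by
                apply Finset.card_le_card
                intro p hp
                rw [Finset.mem_filter] at hp
                exact Finset.mem_range.2 hp.2
            _ = P1 := Finset.card_range _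
      _ = Φ ^ P1 * (Q : ℝ) ^ (-c) := mul_comm _ _
  have c4 : FQ h (un v) Q q a = ∑ n ∈ M.divisors, S n - ∑ n ∈ M.divisors.filter (fun n => ¬ n ≤ Q), S n := by
    rw [c1, ← Finset.sum_filter_add_sum_filter_not M.divisors (fun n => n ≤ Q)]
    ring
  rw [c4, Complex.sub_re, Complex.sub_im, c2'.2]
  constructor
  · have h7 := Complex.re_le_norm (∑ n ∈ M.divisors.filter (fun n => ¬ n ≤ Q), S n)
    linarith [c2'.1]
  · rw [zero_sub, abs_neg]
    exact (Complex.abs_im_le_norm _).trans c3

end Vale.Agent.P042.PS748
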