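import Vale.Agent.P042.PS748.A4

/-! Real variable lemmas for the local factors. -/

namespace Vale.Agent.P042.PS748

open Finset

/-- the laziness parameter -/
noncomputable def omg (K ρ : ℝ) : ℝ := ρ * (1 + K) / (1 + K * ρ)

lemma omg_pos {K ρ : ℝ} (hK : 0 ≤ K) (hρ : 0 < ρ) : 0 < omg K ρ := by
  unfold omg; positivity

lemma omg_lt_one {K ρ : ℝ} (hK : 0 ≤ K) (hρ : 0 < ρ) (hρ1 : ρ < 1) : omg K ρ < 1 := by
  unfold omg
  rw [div_lt_one (by positivity)]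
  nlinarith

lemma omg_fix {K ρ : ℝ} (hK : 0 ≤ K) (hρ : 0 < ρ) : ρ * (1 + (1 - omg K ρ) * K) = omg K ρ := by
  unfold omg
  have : 1 + K * ρ ≠ 0 := by positivity
  field_simp
  ring

lemma omg_mono {K ρ ρ' : ℝ} (hK : 0 ≤ K) (hρ : 0 < ρ) (h : ρ ≤ ρ') : omg K ρ ≤ omg K ρ' := by
  unfold omg
  have h0 : 0 < ρ' := hρ.trans_le h
  rw [div_le_div_iff₀ (by positivity) (by positivity)]
  nlinarith

lemma omg_le {K ρ : ℝ} (hK : 0 ≤ K) (hρ : 0 < ρ) : omg K ρ ≤ (1 + K) * ρ := by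
  unfold omg
  rw [div_le_iff₀ (by positivity)]
  have : 0 ≤ K * ρ := by positivity
  nlinarith [mul_nonneg (mul_nonneg (by linarith : (0:ℝ) ≤ 1 + K) hρ.le) this]

lemma geo_claim {K ρ : ℝ} (hK : 0 ≤ K) (hρ : 0 < ρ) (t : ℕ) :
    (1 - omg K ρ) * K * ∑ i ∈ range t, (omg K ρ) ^ i * ρ ^ (t - i) ≤ (omg K ρ) ^ t := by
  induction t with
  | zero => simp
  | succ t ih =>
    rw [Finset.sum_range_succ]
    have h1 : ∑ i ∈ range t, (omg K ρ) ^ i * ρ ^ (t + 1 - i) =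
        ρ * ∑ i ∈ range t, (omg K ρ) ^ i * ρ ^ (t - i) := by
      rw [Finset.mul_sum]
      refine Finset.sum_congr rfl fun i hi => ?_
      rw [Finset.mem_range] at hi
      have : t + 1 - i = (t - i) + 1 := by omega
      rw [this, pow_succ]
      ring
    rw [h1]
    have h2 : t + 1 - t = 1 := by omega
    rw [h2, pow_one]
    have h3 := omg_fix hK hρ
    have h4 : 0 < (omg K ρ) ^ t := pow_pos (omg_pos hK hρ) t
    calc (1 - omg K ρ) * K * (ρ * ∑ i ∈ range t, (omg K ρ) ^ i * ρ ^ (t - i) + (omg K ρ) ^ t * ρ)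
        = ρ * ((1 - omg K ρ) * K * ∑ i ∈ range t, (omg K ρ) ^ i * ρ ^ (t - i)) +
          (1 - omg K ρ) * K * ρ * (omg K ρ) ^ t := by ring
      _ ≤ ρ * (omg K ρ) ^ t + (1 - omg K ρ) * K * ρ * (omg K ρ) ^ t := by gcongr
      _ = (ρ * (1 + (1 - omg K ρ) * K)) * (omg K ρ) ^ t := by ring
      _ = (omg K ρ) ^ (t + 1) := by rw [h3, pow_succ]; ring

/-- nonnegativity of the local factor -/
lemma local_nonneg {K ρ : ℝ} (hK : 0 ≤ K) (hρ : 0 < ρ) (hρ1 : ρ < 1) (γ : ℕ → ℝ) (t : ℕ)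
    (h1 : ∀ i, t ≤ i → γ i = 1) (h2 : ∀ i, i < t → |γ i| ≤ K * ρ ^ (t - i)) (I : ℕ) (hI : t ≤ I) :
    0 ≤ γ 0 + ∑ i ∈ range I, (omg K ρ) ^ (i + 1) * (γ (i + 1) - γ i) := by
  set w := omg K ρ with hw
  have habel : ∀ J : ℕ, γ 0 + ∑ i ∈ range J, w ^ (i + 1) * (γ (i + 1) - γ i) =
      (1 - w) * ∑ i ∈ range J, w ^ i * γ i + w ^ J * γ J := by
    intro J
    induction J with
    | zero => simp
    | succ J ih =>
      rw [Finset.sum_range_succ, Finset.sum_range_succ, ← add_assoc, ih]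
      ring
  have hconst : ∀ J, t ≤ J → γ 0 + ∑ i ∈ range J, w ^ (i + 1) * (γ (i + 1) - γ i) =
      γ 0 + ∑ i ∈ range t, w ^ (i + 1) * (γ (i + 1) - γ i) := by
    intro J hJ
    induction J, hJ using Nat.le_induction with
    | base => rfl
    | succ J hJ ih =>
      rw [Finset.sum_range_succ, ← add_assoc, ih, h1 J hJ, h1 (J + 1) (by omega)]
      ring
  rw [hconst I hI, habel t, h1 t le_rfl, mul_one]
  have hw0 := omg_pos hK hρ
  have hw1 := omg_lt_one hK hρ hρ1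
  have h3 : -(K * ∑ i ∈ range t, w ^ i * ρ ^ (t - i)) ≤ ∑ i ∈ range t, w ^ i * γ i := by
    rw [Finset.mul_sum, ← Finset.sum_neg_distrib]
    refine Finset.sum_le_sum fun i hi => ?_
    rw [Finset.mem_range] at hi
    have h4 := (abs_le.1 (h2 i hi)).1
    have h5 : 0 ≤ w ^ i := pow_nonneg hw0.le i
    nlinarith
  have h6 := geo_claim hK hρ t
  rw [← hw] at h6 hw1
  have h7 : 0 < 1 - w := by linarith
  nlinarith

/-- partial sums of geometric series -/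
lemma geom_le {x : ℝ} (hx0 : 0 ≤ x) (hx1 : x < 1) (I : ℕ) :
    ∑ i ∈ range I, x ^ (i + 1) ≤ x / (1 - x) := by
  have h1 : ∑ i ∈ range I, x ^ (i + 1) = x * ∑ i ∈ range I, x ^ i := by
    rw [Finset.mul_sum]
    refine Finset.sum_congr rfl fun i _ => ?_
    rw [pow_succ]; ring
  rw [h1, geom_sum_eq hx1.ne, div_eq_mul_inv x]
  have h2 : (x ^ I - 1) / (x - 1) = (1 - x ^ I) / (1 - x) := by
    rw [← neg_sub 1 (x ^ I), ← neg_sub 1 x, neg_div_neg_eq]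
  rw [h2, ← div_eq_mul_inv, mul_div_assoc']
  have h3 : 0 ≤ x ^ I := pow_nonneg hx0 I
  have h4 : 0 < 1 - x := by linarith
  gcongr
  nlinarith

/-- bound for the weighted absolute sum -/
lemma local_sum_le {w y : ℝ} (hw0 : 0 ≤ w) (hy0 : 0 ≤ y) (x : ℝ) (hx : y * w ≤ x) (hx1 : x < 1)
    (γ : ℕ → ℝ) (hγ : ∀ i, |γ i| ≤ 1) (I : ℕ) :
    |γ 0| + ∑ i ∈ range I, y ^ (i + 1) * |w ^ (i + 1) * (γ (i + 1) - γ i)| ≤ |γ 0| + 2 * (x / (1 - x)) := by
  have hx0 : 0 ≤ x := (mul_nonneg hy0 hw0).trans hx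
  have h1 : ∑ i ∈ range I, y ^ (i + 1) * |w ^ (i + 1) * (γ (i + 1) - γ i)| ≤
      ∑ i ∈ range I, 2 * x ^ (i + 1) := by
    refine Finset.sum_le_sum fun i _ => ?_
    rw [abs_mul, abs_of_nonneg (pow_nonneg hw0 _), ← mul_assoc, ← mul_pow]
    have h2 : |γ (i + 1) - γ i| ≤ 2 := by
      have h3 := hγ (i + 1)
      have h4 := hγ i
      rw [abs_le] at *
      constructor <;> linarith [h3.1, h3.2, h4.1, h4.2]
    calc (y * w) ^ (i + 1) * |γ (i + 1) - γ i| ≤ x ^ (i + 1) * 2 := by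
          gcongr
      _ = 2 * x ^ (i + 1) := mul_comm _ _
  rw [← Finset.mul_sum] at h1
  have h5 := geom_le hx0 hx1 I
  linarith

end Vale.Agent.P042.PS748
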