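import Vale.Agent.P042.PS748.A5

/-! Class means. -/

namespace Vale.Agent.P042.PS748

open Finset Polynomial

lemma class_mean {D L : ℕ} (hD : 1 ≤ D) (hL : 1 ≤ L) (r : ℤ) {g : ℤ → ℂ} (hg : Per L g) :
    (D : ℂ) * mn (D * L) (fun x => (if (D : ℤ) ∣ x - r then (1 : ℂ) else 0) * g x) =
      mn L (fun y => g (r + D * y)) := by
  have hDL : NeZero (D * L) := ⟨Nat.mul_ne_zero (by omega) (by omega)⟩
  have hper : Per (D * L) (fun x => (if (D : ℤ) ∣ x - r then (1 : ℂ) else 0) * g x) := by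
    apply Per.mul
    · intro x
      have : ((D : ℤ) ∣ (x + ((D * L : ℕ) : ℤ)) - r) ↔ ((D : ℤ) ∣ x - r) := by
        push_cast
        rw [show x + (D : ℤ) * L - r = (x - r) + D * L by ring]
        exact (dvd_add_left (Dvd.intro _ rfl))
      simp only [this]
    · exact hg.dvd (Dvd.intro_left _ rfl)
  unfold mn
  rw [← sum_affine hper r 1 isCoprime_one_left]
  rw [sum_mul_range D L (fun x => (if (D : ℤ) ∣ (r + 1 * x) - r then (1 : ℂ) else 0) * g (r + 1 * x))]
  have h1 : ∀ j ∈ range L, ∑ i ∈ range D,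
      (fun x : ℤ => (if (D : ℤ) ∣ (r + 1 * x) - r then (1 : ℂ) else 0) * g (r + 1 * x)) ((i : ℤ) + D * j) =
      g (r + D * (j : ℤ)) := by
    intro j _
    rw [Finset.sum_eq_single_of_mem 0 (Finset.mem_range.2 (by omega))]
    · simp
    · intro i hi hi0
      rw [Finset.mem_range] at hi
      have : ¬ ((D : ℤ) ∣ (r + 1 * ((i : ℤ) + D * j)) - r) := by
        rw [show (r + 1 * ((i : ℤ) + D * j)) - r = (i : ℤ) + D * j by ring]
        rw [dvd_add_left (Dvd.intro _ rfl)]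
        intro h2
        have h3 : D ∣ i := by exact_mod_cast h2
        have := Nat.le_of_dvd (by omega) h3
        omega
      simp only [this, if_false, zero_mul]
  rw [Finset.sum_congr rfl h1]
  have hD' : (D : ℂ) ≠ 0 := by exact_mod_cast (by omega : D ≠ 0)
  push_cast
  field_simp

lemma class_mean_refl {D L : ℕ} (hD : 1 ≤ D) (hL : 1 ≤ L) (r s : ℤ) {g : ℤ → ℂ} (hg : Per L g)
    (hs : ∀ x, g (s - x) = (starRingEnd ℂ) (g x)) :
    (D : ℂ) * mn (D * L) (fun x => (if (D : ℤ) ∣ (s - x) - r then (1 : ℂ) else 0) * g x) =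
      (starRingEnd ℂ) (mn L (fun y => g (r + D * y))) := by
  have hDL : NeZero (D * L) := ⟨Nat.mul_ne_zero (by omega) (by omega)⟩
  have hper : Per (D * L) (fun x => (if (D : ℤ) ∣ (s - x) - r then (1 : ℂ) else 0) * g x) := by
    apply Per.mul
    · intro x
      have : ((D : ℤ) ∣ (s - (x + ((D * L : ℕ) : ℤ))) - r) ↔ ((D : ℤ) ∣ (s - x) - r) := by
        push_cast
        rw [show s - (x + (D : ℤ) * L) - r = ((s - x) - r) - D * L by ring]
        exact (dvd_sub_left (Dvd.intro _ rfl))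
      simp only [this]
    · exact hg.dvd (Dvd.intro_left _ rfl)
  rw [← class_mean hD hL r hg]
  rw [map_mul, Complex.conj_natCast]
  congr 1
  unfold mn
  rw [map_div₀, Complex.conj_natCast, map_sum]
  congr 1
  rw [← sum_affine hper s (-1) (isCoprime_one_left.neg_left)]
  refine Finset.sum_congr rfl fun x _ => ?_
  have h1 : s + -1 * (x : ℤ) = s - x := by ring
  have h2 : s - (s - (x : ℤ)) = x := by ring
  simp only [h1, h2, hs]
  rw [map_mul]
  congr 1
  split_ifs <;> simp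

/-- symmetrised indicator of a residue class -/
noncomputable def sg (r : ℕ → ℤ) (s : ℤ) (d : ℕ) (x : ℤ) : ℝ :=
  ((if (d : ℤ) ∣ x - r d then 1 else 0) + (if (d : ℤ) ∣ (s - x) - r d then 1 else 0)) / 2

lemma sg_nonneg (r : ℕ → ℤ) (s : ℤ) (d : ℕ) (x : ℤ) : 0 ≤ sg r s d x := by
  unfold sg; split_ifs <;> norm_num

lemma sg_le (r : ℕ → ℤ) (s : ℤ) (d : ℕ) (x : ℤ) : sg r s d x ≤ 1 := by
  unfold sg; split_ifs <;> norm_num

lemma sg_one (r : ℕ → ℤ) (s : ℤ) (x : ℤ) : sg r s 1 x = 1 := by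
  unfold sg; simp

lemma sg_per (r : ℕ → ℤ) (s : ℤ) (d M : ℕ) (hM : d ∣ M) (x : ℤ) : sg r s d (x + M) = sg r s d x := by
  obtain ⟨c, rfl⟩ := hM
  unfold sg
  have h1 : ((d : ℤ) ∣ (x + ((d * c : ℕ) : ℤ)) - r d) ↔ ((d : ℤ) ∣ x - r d) := by
    push_cast
    rw [show x + (d : ℤ) * c - r d = (x - r d) + d * c by ring]
    exact (dvd_add_left (Dvd.intro _ rfl))
  have h2 : ((d : ℤ) ∣ (s - (x + ((d * c : ℕ) : ℤ))) - r d) ↔ ((d : ℤ) ∣ (s - x) - r d) := by
    push_cast
    rw [show s - (x + (d : ℤ) * c) - r d = ((s - x) - r d) - d * c by ring]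
    exact (dvd_sub_left (Dvd.intro _ rfl))
  simp only [h1, h2]

lemma mn_sg {D L : ℕ} (hD : 1 ≤ D) (hL : 1 ≤ L) (r : ℕ → ℤ) (s : ℤ) {g : ℤ → ℂ} (hg : Per L g)
    (hs : ∀ x, g (s - x) = (starRingEnd ℂ) (g x)) :
    mn (D * L) (fun x => (((D : ℝ) * sg r s D x : ℝ) : ℂ) * g x) =
      ((mn L (fun y => g (r D + D * y))).re : ℂ) := by
  have h1 := class_mean hD hL (r D) hg
  have h2 := class_mean_refl hD hL (r D) s hg hs
  set Z := mn L (fun y => g (r D + D * y)) with hZ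
  have h3 : mn (D * L) (fun x => (((D : ℝ) * sg r s D x : ℝ) : ℂ) * g x) =
      ((D : ℂ) * mn (D * L) (fun x => (if (D : ℤ) ∣ x - r D then (1 : ℂ) else 0) * g x) +
      (D : ℂ) * mn (D * L) (fun x => (if (D : ℤ) ∣ (s - x) - r D then (1 : ℂ) else 0) * g x)) / 2 := by
    unfold mn
    rw [mul_div_assoc', mul_div_assoc', ← add_div, div_right_comm]
    congr 1
    rw [Finset.mul_sum, Finset.mul_sum, ← Finset.sum_add_distrib, Finset.sum_div]
    refine Finset.sum_congr rfl fun x _ => ?_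
    unfold sg
    push_cast
    split_ifs <;> simp <;> ring
  rw [h3, h1, h2, Complex.add_conj]
  push_cast
  ring

end Vale.Agent.P042.PS748
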