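import Vale.Agent.P042.PS748.A6

/-! Local analysis for polynomials that are odd about a point. -/

namespace Vale.Agent.P042.PS748

open Finset Polynomial

variable {h : ℤ[X]} {lam : ℕ → ℕ} {r : ℕ → ℤ} {H : ℕ → ℤ[X]} {R : ℕ}

/-- shape of `lam` at prime powers -/
lemma lam_prime (hA : AuxData h lam r H R) (p : ℕ) (hp : p.Prime) :
    ∃ m : ℕ, 1 ≤ m ∧ ∀ i, lam (p ^ i) = p ^ (m * i) := by
  obtain ⟨h1, h2⟩ := hA.hdvd p hp.one_le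
  obtain ⟨m, -, hm⟩ := (Nat.dvd_prime_pow hp).1 h2
  have hm1 : 1 ≤ m := by
    rcases Nat.eq_zero_or_pos m with h0 | h0
    · rw [hm, h0, pow_zero] at h1
      exact absurd (Nat.dvd_one.1 h1) hp.one_lt.ne'
    · exact h0
  refine ⟨m, hm1, fun i => ?_⟩
  induction i with
  | zero =>
    have h3 := (hA.hdvd 1 le_rfl).2
    rw [one_pow] at h3
    rw [pow_zero, mul_zero, pow_zero]
    exact Nat.dvd_one.1 h3
  | succ i ih =>
    rw [pow_succ, hA.hmul _ _ (Nat.one_le_pow _ _ hp.pos) hp.one_le, ih, hm]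
    ring

/-- class mean at level `i` -/
noncomputable def Zc (h : ℤ[X]) (r : ℕ → ℤ) (p j : ℕ) (b : ℤ) (i : ℕ) : ℂ :=
  mn (p ^ j) (fun y => e (b * ((h.eval (r (p ^ i) + ((p ^ i : ℕ) : ℤ) * y) : ℤ) : ℝ) / (p : ℝ) ^ j))

lemma eval_aux (hA : AuxData h lam r H R) (d : ℕ) (hd : 1 ≤ d) (y : ℤ) :
    h.eval (r d + (d : ℤ) * y) = (lam d : ℤ) * (H d).eval y := by
  have := congrArg (Polynomial.eval y) (hA.hH d hd)
  simp only [eval_mul, eval_C, eval_comp, eval_add, eval_X] at this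
  exact this.symm

lemma norm_mn_le (L : ℕ) (f : ℤ → ℂ) (hf : ∀ x, ‖f x‖ ≤ 1) : ‖mn L f‖ ≤ 1 := by
  unfold mn
  rw [norm_div, Complex.norm_natCast]
  refine div_le_one_of_le₀ ?_ (Nat.cast_nonneg _)
  refine (norm_sum_le _ _).trans ?_
  refine (Finset.sum_le_sum fun (x : ℕ) _ => hf (x : ℤ)).trans ?_
  simp

lemma Zc_norm_le (h : ℤ[X]) (r : ℕ → ℤ) (p j : ℕ) (b : ℤ) (i : ℕ) : ‖Zc h r p j b i‖ ≤ 1 :=
  norm_mn_le _ _ fun x => (norm_e _).le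

lemma Zc_one (hA : AuxData h lam r H R) (p : ℕ) (hp : p.Prime) (m : ℕ)
    (hm : ∀ i, lam (p ^ i) = p ^ (m * i)) (j : ℕ) (b : ℤ) (i : ℕ) (hij : j ≤ m * i) :
    Zc h r p j b i = 1 := by
  unfold Zc mn
  have h1 : ∀ y ∈ range (p ^ j),
      e (b * ((h.eval (r (p ^ i) + ((p ^ i : ℕ) : ℤ) * (y : ℤ)) : ℤ) : ℝ) / (p : ℝ) ^ j) = 1 := by
    intro y _
    rw [eval_aux hA _ (Nat.one_le_pow _ _ hp.pos), hm]
    obtain ⟨w, hw⟩ := Nat.exists_eq_add_of_le hij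
    rw [hw, pow_add]
    have hp0 : (p : ℝ) ≠ 0 := by exact_mod_cast hp.ne_zero
    have h2 := e_int (b * (p : ℤ) ^ w * (H (p ^ i)).eval (y : ℤ))
    rw [← h2]
    congr 1
    push_cast
    field_simp
  rw [Finset.sum_congr rfl h1]
  have : ((p ^ j : ℕ) : ℂ) ≠ 0 := by exact_mod_cast pow_ne_zero _ hp.ne_zero
  rw [Finset.sum_const, card_range, nsmul_eq_mul, mul_one, div_self this]

lemma Zc_small (hA : AuxData h lam r H R) (hk : 1 ≤ h.natDegree) (hpos : 0 < h.leadingCoeff)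
    (E K : ℕ) (hE : 1 ≤ E)
    (hEK : ∀ (H : ℤ[X]), H.natDegree = h.natDegree → 0 < H.leadingCoeff →
      (∀ g : ℤ, (∀ j : ℕ, 1 ≤ j → g ∣ H.coeff j) → g ∣ (R : ℤ)) →
      ∀ (q : ℕ) [NeZero q] (a : ℤ), IsCoprime a (q : ℤ) →
        ‖ecs H a q‖ ^ E * q ≤ (K : ℝ) ^ E * (q : ℝ) ^ E)
    (p : ℕ) (hp : p.Prime) (m : ℕ)
    (hm : ∀ i, lam (p ^ i) = p ^ (m * i)) (j : ℕ) (b : ℤ) (hb : IsCoprime b (p : ℤ)) (i : ℕ)
    (hij : m * i < j) :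
    ‖Zc h r p j b i‖ ≤ K * ((p : ℝ) ^ (-(1 / (E : ℝ)))) ^ (j - m * i) := by
  have hp0 : (0 : ℝ) < p := by exact_mod_cast hp.pos
  obtain ⟨w, hw⟩ := Nat.exists_eq_add_of_lt hij
  have hw' : j - m * i = w + 1 := by omega
  rw [hw']
  have hd1 : 1 ≤ p ^ i := Nat.one_le_pow _ _ hp.pos
  have hf : ∀ y : ℤ, e (b * ((h.eval (r (p ^ i) + ((p ^ i : ℕ) : ℤ) * y) : ℤ) : ℝ) / (p : ℝ) ^ j) =
      e (b * (((H (p ^ i)).eval y : ℤ) : ℝ) / ((p ^ (w + 1) : ℕ) : ℝ)) := by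
    intro y
    rw [eval_aux hA _ hd1, hm]
    congr 1
    rw [hw]
    push_cast
    rw [show m * i + w + 1 = m * i + (w + 1) by ring, pow_add (p : ℝ) (m * i) (w + 1)]
    field_simp
  have hper := per_e (H (p ^ i)) b (p ^ (w + 1)) (Nat.one_le_pow _ _ hp.pos)
  have h1 : Zc h r p j b i = mn (p ^ (w + 1)) (fun y => e (b * (((H (p ^ i)).eval y : ℤ) : ℝ) /
      ((p ^ (w + 1) : ℕ) : ℝ))) := by
    unfold Zc
    simp only [hf]
    exact mn_dvd (Nat.one_le_pow _ _ hp.pos) (pow_dvd_pow p (by omega)) hper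
  have hne : NeZero (p ^ (w + 1)) := ⟨pow_ne_zero _ hp.ne_zero⟩
  have h2 : mn (p ^ (w + 1)) (fun y => e (b * (((H (p ^ i)).eval y : ℤ) : ℝ) /
      ((p ^ (w + 1) : ℕ) : ℝ))) = ecs (H (p ^ i)) b (p ^ (w + 1)) / ((p ^ (w + 1) : ℕ) : ℂ) := by
    unfold mn
    rw [← sum_range_eq_ecs]
  have hcop : IsCoprime b ((p ^ (w + 1) : ℕ) : ℤ) := by
    push_cast
    exact hb.pow_right
  have h3 := hEK (H (p ^ i)) (hA.natDegree_H hk _ hd1) (hA.lead_pos hk hpos _ hd1) (hA.hgcd _ hd1)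
    (p ^ (w + 1)) b hcop
  rw [h1, h2, norm_div, Complex.norm_natCast]
  set q : ℝ := ((p ^ (w + 1) : ℕ) : ℝ) with hq
  have hq0 : 0 < q := by
    rw [hq]; push_cast; positivity
  have hE0 : (0 : ℝ) < E := by exact_mod_cast hE
  have h4 : ((p : ℝ) ^ (-(1 / (E : ℝ)))) ^ (w + 1) = q ^ (-(1 / (E : ℝ))) := by
    rw [hq]
    push_cast
    rw [← Real.rpow_natCast, ← Real.rpow_mul hp0.le, ← Real.rpow_natCast, ← Real.rpow_mul hp0.le]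
    ring_nf
  rw [h4]
  have h5 : (‖ecs (H (p ^ i)) b (p ^ (w + 1))‖ / q) ^ E ≤ (K * q ^ (-(1 / (E : ℝ)))) ^ E := by
    rw [div_pow, mul_pow, ← Real.rpow_natCast (q ^ (-(1 / (E : ℝ)))) E, ← Real.rpow_mul hq0.le]
    have : -(1 / (E : ℝ)) * E = -1 := by field_simp
    rw [this, Real.rpow_neg_one, div_le_iff₀ (pow_pos hq0 _)]
    rw [mul_assoc, mul_comm q⁻¹, ← mul_assoc, ← div_eq_mul_inv, le_div_iff₀ hq0]
    exact h3
  exact le_of_pow_le_pow_left₀ (by omega) (by positivity) h5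

end Vale.Agent.P042.PS748
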