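import Vale.Agent.P042.PS748.A7

/-! Arithmetic output for polynomials that are odd about a point. -/

namespace Vale.Agent.P042.PS748

open Finset Polynomial

variable {h : ℤ[X]} {r : ℕ → ℤ}

/-- local weights -/
noncomputable def vv (r : ℕ → ℤ) (s : ℤ) (E K : ℕ) (p : ℕ) : ℕ → ℤ → ℝ
  | 0, _ => 1
  | i + 1, x => (omg K ((p : ℝ) ^ (-(1 / (E : ℝ))))) ^ (i + 1) *
      (((p ^ (i + 1) : ℕ) : ℝ) * sg r s (p ^ (i + 1)) x - ((p ^ i : ℕ) : ℝ) * sg r s (p ^ i) x)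

lemma rho_pos (E p : ℕ) (hp : p.Prime) : 0 < (p : ℝ) ^ (-(1 / (E : ℝ))) := by
  have : (0 : ℝ) < p := by exact_mod_cast hp.pos
  positivity

lemma rho_lt_one (E p : ℕ) (hE : 1 ≤ E) (hp : p.Prime) : (p : ℝ) ^ (-(1 / (E : ℝ))) < 1 := by
  have h1 : (1 : ℝ) < p := by exact_mod_cast hp.one_lt
  have hE0 : (0 : ℝ) < E := by exact_mod_cast hE
  apply Real.rpow_lt_one_of_one_lt_of_neg h1
  have : 0 < 1 / (E : ℝ) := by positivity
  linarith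

lemma vv_abs (r : ℕ → ℤ) (s : ℤ) (E K : ℕ) (hE : 1 ≤ E) (p : ℕ) (hp : p.Prime) (i : ℕ) (x : ℤ) :
    |vv r s E K p i x| ≤ ((p ^ i : ℕ) : ℝ) := by
  cases i with
  | zero => simp [vv]
  | succ i =>
    have hw0 := omg_pos (K := (K : ℝ)) (Nat.cast_nonneg K) (rho_pos E p hp)
    have hw1 := omg_lt_one (K := (K : ℝ)) (Nat.cast_nonneg K) (rho_pos E p hp) (rho_lt_one E p hE hp)
    have h1 : (0 : ℝ) ≤ ((p ^ i : ℕ) : ℝ) := Nat.cast_nonneg _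
    have h2 : ((p ^ i : ℕ) : ℝ) ≤ ((p ^ (i + 1) : ℕ) : ℝ) := by
      exact_mod_cast Nat.pow_le_pow_right hp.pos (by omega)
    have a1 := sg_nonneg r s (p ^ (i + 1)) x
    have a2 := sg_le r s (p ^ (i + 1)) x
    have b1 := sg_nonneg r s (p ^ i) x
    have b2 := sg_le r s (p ^ i) x
    show |(omg K ((p : ℝ) ^ (-(1 / (E : ℝ))))) ^ (i + 1) *
      (((p ^ (i + 1) : ℕ) : ℝ) * sg r s (p ^ (i + 1)) x - ((p ^ i : ℕ) : ℝ) * sg r s (p ^ i) x)| ≤ _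
    rw [abs_mul, abs_of_pos (pow_pos hw0 _)]
    have c1 : |((p ^ (i + 1) : ℕ) : ℝ) * sg r s (p ^ (i + 1)) x - ((p ^ i : ℕ) : ℝ) * sg r s (p ^ i) x| ≤
        ((p ^ (i + 1) : ℕ) : ℝ) := by
      rw [abs_le]
      constructor
      · nlinarith
      · nlinarith
    calc _ ≤ 1 * ((p ^ (i + 1) : ℕ) : ℝ) := by
          apply mul_le_mul (pow_le_one₀ hw0.le hw1.le) c1 (abs_nonneg _) (by norm_num)
      _ = _ := one_mul _

lemma vv_per (r : ℕ → ℤ) (s : ℤ) (E K : ℕ) (p : ℕ) (i : ℕ) (x : ℤ) :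
    vv r s E K p i (x + (p ^ i : ℕ)) = vv r s E K p i x := by
  cases i with
  | zero => rfl
  | succ i =>
    show (omg K ((p : ℝ) ^ (-(1 / (E : ℝ))))) ^ (i + 1) *
      (((p ^ (i + 1) : ℕ) : ℝ) * sg r s (p ^ (i + 1)) (x + (p ^ (i + 1) : ℕ)) -
        ((p ^ i : ℕ) : ℝ) * sg r s (p ^ i) (x + (p ^ (i + 1) : ℕ))) =
      (omg K ((p : ℝ) ^ (-(1 / (E : ℝ))))) ^ (i + 1) *
      (((p ^ (i + 1) : ℕ) : ℝ) * sg r s (p ^ (i + 1)) x - ((p ^ i : ℕ) : ℝ) * sg r s (p ^ i) x)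
    rw [sg_per r s (p ^ (i + 1)) (p ^ (i + 1)) dvd_rfl x,
      sg_per r s (p ^ i) (p ^ (i + 1)) (pow_dvd_pow p (by omega)) x]

lemma h_refl {s : ℤ} (hs : h.comp (C s - X) = -h) (x : ℤ) : h.eval (s - x) = -h.eval x := by
  have := congrArg (Polynomial.eval x) hs
  simpa using this

lemma g_refl {s : ℤ} (hs : h.comp (C s - X) = -h) (b : ℤ) (q : ℝ) (x : ℤ) :
    e (b * ((h.eval (s - x) : ℤ) : ℝ) / q) = (starRingEnd ℂ) (e (b * ((h.eval x : ℤ) : ℝ) / q)) := by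
  rw [h_refl hs, conj_e]
  congr 1
  push_cast
  ring

lemma bet_zero {s : ℤ} (hs : h.comp (C s - X) = -h) (E K : ℕ) (p : ℕ)
    (hp : p.Prime) (j : ℕ) (b : ℤ) :
    bet h (vv r s E K) p 0 j b = ((Zc h r p j b 0).re : ℂ) := by
  have hg := per_e h b (p ^ j) (Nat.one_le_pow _ _ hp.pos)
  push_cast at hg
  have h1 := mn_sg (D := 1) (L := p ^ j) le_rfl (Nat.one_le_pow _ _ hp.pos) r s hg
    (fun x => g_refl hs b _ x)
  unfold bet Zc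
  rw [zero_add, pow_zero]
  rw [one_mul] at h1
  rw [← h1]
  congr 1
  funext x
  rw [sg_one]
  simp [vv]

lemma mn_sub' (L : ℕ) (f g : ℤ → ℂ) : mn L (fun x => f x - g x) = mn L f - mn L g := by
  unfold mn
  rw [Finset.sum_sub_distrib, sub_div]

lemma mn_const_mul (L : ℕ) (c : ℂ) (f : ℤ → ℂ) : mn L (fun x => c * f x) = c * mn L f := by
  unfold mn
  rw [← Finset.mul_sum, mul_div_assoc]

lemma bet_succ {s : ℤ} (hs : h.comp (C s - X) = -h) (E K : ℕ) (p : ℕ)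
    (hp : p.Prime) (i j : ℕ) (b : ℤ) :
    bet h (vv r s E K) p (i + 1) j b = (((omg K ((p : ℝ) ^ (-(1 / (E : ℝ))))) ^ (i + 1) *
      ((Zc h r p j b (i + 1)).re - (Zc h r p j b i).re) : ℝ) : ℂ) := by
  have hg := per_e h b (p ^ j) (Nat.one_le_pow _ _ hp.pos)
  push_cast at hg
  have h1 := mn_sg (D := p ^ (i + 1)) (L := p ^ j) (Nat.one_le_pow _ _ hp.pos)
    (Nat.one_le_pow _ _ hp.pos) r s hg (fun x => g_refl hs b _ x)
  have h2 := mn_sg (D := p ^ i) (L := p ^ j) (Nat.one_le_pow _ _ hp.pos)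
    (Nat.one_le_pow _ _ hp.pos) r s hg (fun x => g_refl hs b _ x)
  have hper : Per (p ^ i * p ^ j) (fun x => ((((p ^ i : ℕ) : ℝ) * sg r s (p ^ i) x : ℝ) : ℂ) *
      e (b * ((h.eval x : ℤ) : ℝ) / (p : ℝ) ^ j)) := by
    apply Per.mul
    · intro x
      have h0 := sg_per r s (p ^ i) (p ^ i * p ^ j) (Dvd.intro _ rfl) x
      simp only [h0]
    · exact hg.dvd (Dvd.intro_left _ rfl)
  have h3 : mn (p ^ (i + 1 + j)) (fun x => ((((p ^ i : ℕ) : ℝ) * sg r s (p ^ i) x : ℝ) : ℂ) *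
      e (b * ((h.eval x : ℤ) : ℝ) / (p : ℝ) ^ j)) = ((Zc h r p j b i).re : ℂ) := by
    unfold Zc
    rw [← h2]
    apply mn_dvd (Nat.one_le_pow _ _ hp.pos) _ hper
    rw [← pow_add]
    exact pow_dvd_pow p (by omega)
  have h4 : mn (p ^ (i + 1 + j)) (fun x => ((((p ^ (i + 1) : ℕ) : ℝ) * sg r s (p ^ (i + 1)) x : ℝ) : ℂ) *
      e (b * ((h.eval x : ℤ) : ℝ) / (p : ℝ) ^ j)) = ((Zc h r p j b (i + 1)).re : ℂ) := by
    unfold Zc
    rw [← h1, pow_add]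
  have h5 : bet h (vv r s E K) p (i + 1) j b = ((omg K ((p : ℝ) ^ (-(1 / (E : ℝ))))) ^ (i + 1) : ℝ) *
      (mn (p ^ (i + 1 + j)) (fun x => ((((p ^ (i + 1) : ℕ) : ℝ) * sg r s (p ^ (i + 1)) x : ℝ) : ℂ) *
      e (b * ((h.eval x : ℤ) : ℝ) / (p : ℝ) ^ j)) -
      mn (p ^ (i + 1 + j)) (fun x => ((((p ^ i : ℕ) : ℝ) * sg r s (p ^ i) x : ℝ) : ℂ) *
      e (b * ((h.eval x : ℤ) : ℝ) / (p : ℝ) ^ j))) := by
    rw [← mn_sub', ← mn_const_mul]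
    unfold bet
    congr 1
    funext x
    show ((((omg K ((p : ℝ) ^ (-(1 / (E : ℝ))))) ^ (i + 1) *
      (((p ^ (i + 1) : ℕ) : ℝ) * sg r s (p ^ (i + 1)) x -
        ((p ^ i : ℕ) : ℝ) * sg r s (p ^ i) x) : ℝ)) : ℂ) * _ = _
    push_cast
    ring
  rw [h5, h3, h4]
  push_cast
  ring

end Vale.Agent.P042.PS748
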