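import Vale.Agent.P042.PS748.A8

/-! Arithmetic output for polynomials that are odd about a point, conclusion. -/

namespace Vale.Agent.P042.PS748

open Finset Polynomial

lemma un_per (v : ℕ → ℕ → ℤ → ℝ)
    (hper : ∀ p i x, p.Prime → v p i (x + (p ^ i : ℕ)) = v p i x) (n : ℕ) (hn : 1 ≤ n) (x : ℤ) :
    un v n (x + n) = un v n x := by
  unfold un
  refine Finset.prod_congr rfl fun p hp => ?_
  have hpp := Nat.prime_of_mem_primeFactors hp
  obtain ⟨c, hc⟩ := Nat.ordProj_dvd n p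
  have h1 : Per (p ^ n.factorization p) (fun x => (v p (n.factorization p) x : ℂ)) :=
    per_ofReal fun x => hper p _ x hpp
  have h2 := h1.congr (x := x + n) (y := x) (by
    rw [add_sub_cancel_left]
    exact_mod_cast Nat.ordProj_dvd n p)
  exact_mod_cast h2

lemma un_abs (v : ℕ → ℕ → ℤ → ℝ)
    (hab : ∀ p i x, p.Prime → |v p i x| ≤ ((p ^ i : ℕ) : ℝ)) (n : ℕ) (hn : 1 ≤ n) (x : ℤ) :
    |un v n x| ≤ n := by
  unfold un
  rw [Finset.abs_prod]
  calc ∏ p ∈ n.primeFactors, |v p (n.factorization p) x|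
      ≤ ∏ p ∈ n.primeFactors, ((p ^ (n.factorization p) : ℕ) : ℝ) :=
        Finset.prod_le_prod (fun _ _ => abs_nonneg _)
          fun p hp => hab p _ x (Nat.prime_of_mem_primeFactors hp)
    _ = n := by
        conv_rhs => rw [← Nat.prod_factorization_pow_eq_self (by omega : n ≠ 0)]
        rw [Finsupp.prod, Nat.support_factorization]
        push_cast
        rfl

lemma FQ_one (h : ℤ[X]) (v : ℕ → ℕ → ℤ → ℝ) (hv0 : ∀ p x, v p 0 x = 1)
    (hper : ∀ p i x, p.Prime → v p i (x + (p ^ i : ℕ)) = v p i x)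
    (hmean : ∀ (p i : ℕ) (b : ℤ), p.Prime → 1 ≤ i → bet h v p i 0 b = 0) (Q : ℕ) (hQ : 1 ≤ Q) :
    FQ h (un v) Q 1 0 = 1 := by
  unfold FQ
  have h1 : ∀ n ∈ Icc 1 Q, mn (n * 1) (fun x => (un v n x : ℂ) *
      e (((0 : ℤ) : ℝ) * ((h.eval x : ℤ) : ℝ) / ((1 : ℕ) : ℝ))) = if n = 1 then 1 else 0 := by
    intro n hn
    rw [Finset.mem_Icc] at hn
    rw [un_term h v hv0 hper n 1 hn.1 le_rfl 0 (fun _ => 0) (by
      intro t
      simp [e_zero])]
    split_ifs with h2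
    · subst h2
      simp
    · rw [mul_one]
      obtain ⟨p, hp, hpn⟩ := Nat.exists_prime_and_dvd h2
      apply Finset.prod_eq_zero (i := p)
      · exact Nat.mem_primeFactors.2 ⟨hp, hpn, by omega⟩
      · rw [Nat.factorization_one]
        exact hmean p _ _ hp (hp.factorization_pos_of_dvd (by omega) hpn)
  rw [Finset.sum_congr rfl h1, Finset.sum_ite_eq' (Icc 1 Q) 1]
  simp [hQ]

/-- choice of exponents -/
lemma choose_params (E : ℕ) (hE : 1 ≤ E) (K : ℕ) :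
    ∃ (c : ℝ) (P1 : ℕ) (x2 : ℝ), 0 < c ∧ 0 < x2 ∧ x2 < 1 ∧
      (∀ p : ℕ, p.Prime → (p : ℝ) ^ c * omg K ((p : ℝ) ^ (-(1 / (E : ℝ)))) ≤ x2) ∧
      (∀ p : ℕ, p.Prime → P1 ≤ p → (p : ℝ) ^ c * omg K ((p : ℝ) ^ (-(1 / (E : ℝ)))) ≤ 1 / 5 ∧
        K * (p : ℝ) ^ (-(1 / (E : ℝ))) ≤ 1 / 2) := by
  have hE0 : (0 : ℝ) < E := by exact_mod_cast hE
  have hK0 : (0 : ℝ) ≤ K := Nat.cast_nonneg K
  -- `P1`
  obtain ⟨P1, hP1⟩ := exists_nat_ge ((5 * (1 + (K : ℝ))) ^ (2 * E))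
  have hP1' : 1 ≤ P1 := by
    have h1 : (1 : ℝ) ≤ (5 * (1 + (K : ℝ))) ^ (2 * E) := one_le_pow₀ (by linarith)
    exact_mod_cast h1.trans hP1
  have hP1'' : 2 ≤ P1 := by
    have h1 : (2 : ℝ) ≤ (5 * (1 + (K : ℝ))) ^ (2 * E) := by
      calc (2 : ℝ) ≤ (5 * (1 + (K : ℝ))) ^ 1 := by linarith
        _ ≤ (5 * (1 + (K : ℝ))) ^ (2 * E) := pow_le_pow_right₀ (by linarith) (by omega)
    exact_mod_cast h1.trans hP1
  have hbig : ∀ p : ℕ, P1 ≤ p → (1 + (K : ℝ)) * (p : ℝ) ^ (-(1 / (2 * E : ℝ))) ≤ 1 / 5 := by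
    intro p hp
    have h2 : (5 * (1 + (K : ℝ))) ^ (2 * E) ≤ (p : ℝ) := hP1.trans (by exact_mod_cast hp)
    have hp0 : (0 : ℝ) < p := lt_of_lt_of_le (by positivity) h2
    have h3 : 5 * (1 + (K : ℝ)) ≤ (p : ℝ) ^ (1 / (2 * E : ℝ)) := by
      have h4 : ((5 * (1 + (K : ℝ))) ^ (2 * E)) ^ (1 / (2 * E : ℝ)) = 5 * (1 + (K : ℝ)) := by
        rw [← Real.rpow_natCast, ← Real.rpow_mul (by positivity)]
        have : ((2 * E : ℕ) : ℝ) * (1 / (2 * E : ℝ)) = 1 := by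
          push_cast
          field_simp
        rw [this, Real.rpow_one]
      rw [← h4]
      exact Real.rpow_le_rpow (by positivity) h2 (by positivity)
    rw [Real.rpow_neg hp0.le, ← div_eq_mul_inv, div_le_iff₀ (by positivity)]
    linarith
  -- `c`
  set w : ℝ := omg K ((2 : ℝ) ^ (-(1 / (E : ℝ)))) with hw
  have hw0 : 0 < w := omg_pos hK0 (by positivity)
  have hw1 : w < 1 := by
    have := rho_lt_one E 2 hE Nat.prime_two
    push_cast at this
    exact omg_lt_one hK0 (by positivity) this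
  have hP1r : (1 : ℝ) < P1 := by exact_mod_cast hP1''
  have hlogP : 0 < Real.log P1 := Real.log_pos hP1r
  have hlogw : Real.log w < 0 := Real.log_neg hw0 hw1
  set c : ℝ := min (1 / (2 * E : ℝ)) (-Real.log w / (2 * Real.log P1)) with hc
  have hc0 : 0 < c := by
    apply lt_min
    · positivity
    · apply div_pos (by linarith) (by positivity)
  have hPc : (P1 : ℝ) ^ c * w ≤ Real.sqrt w := by
    have h1 : (P1 : ℝ) ^ c ≤ (P1 : ℝ) ^ (-Real.log w / (2 * Real.log P1)) :=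
      Real.rpow_le_rpow_of_exponent_le hP1r.le (min_le_right _ _)
    have h2 : (P1 : ℝ) ^ (-Real.log w / (2 * Real.log P1)) = w ^ (-(1 / 2 : ℝ)) := by
      rw [Real.rpow_def_of_pos (by linarith), Real.rpow_def_of_pos hw0]
      congr 1
      field_simp
    have h3 : w ^ (-(1 / 2 : ℝ)) * w = Real.sqrt w := by
      rw [Real.sqrt_eq_rpow]
      nth_rewrite 2 [← Real.rpow_one w]
      rw [← Real.rpow_add hw0]
      norm_num
    calc (P1 : ℝ) ^ c * w ≤ w ^ (-(1 / 2 : ℝ)) * w := by rw [← h2]; gcongr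
      _ = Real.sqrt w := h3
  have hsq1 : Real.sqrt w < 1 := by
    rw [Real.sqrt_lt' one_pos]; linarith
  have hsq0 : 0 < Real.sqrt w := Real.sqrt_pos.2 hw0
  have hlarge : ∀ p : ℕ, p.Prime → P1 ≤ p →
      (p : ℝ) ^ c * omg K ((p : ℝ) ^ (-(1 / (E : ℝ)))) ≤ 1 / 5 := by
    intro p hp hpP
    have hp0 : (0 : ℝ) < p := by exact_mod_cast hp.pos
    have hp1 : (1 : ℝ) ≤ p := by exact_mod_cast hp.one_le
    calc (p : ℝ) ^ c * omg K ((p : ℝ) ^ (-(1 / (E : ℝ))))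
        ≤ (p : ℝ) ^ (1 / (2 * E : ℝ)) * ((1 + (K : ℝ)) * (p : ℝ) ^ (-(1 / (E : ℝ)))) := by
          apply mul_le_mul
          · exact Real.rpow_le_rpow_of_exponent_le hp1 (min_le_left _ _)
          · exact omg_le hK0 (rho_pos E p hp)
          · exact (omg_pos hK0 (rho_pos E p hp)).le
          · positivity
      _ = (1 + (K : ℝ)) * ((p : ℝ) ^ (1 / (2 * E : ℝ)) * (p : ℝ) ^ (-(1 / (E : ℝ)))) := by ring
      _ = (1 + (K : ℝ)) * (p : ℝ) ^ (-(1 / (2 * E : ℝ))) := by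
          rw [← Real.rpow_add hp0]
          congr 2
          field_simp
          ring
      _ ≤ 1 / 5 := hbig p hpP
  refine ⟨c, P1, max (Real.sqrt w) (1 / 5), hc0, lt_max_of_lt_left hsq0,
    max_lt hsq1 (by norm_num), ?_, ?_⟩
  · intro p hp
    by_cases hpP : P1 ≤ p
    · exact (hlarge p hp hpP).trans (le_max_right _ _)
    · refine le_trans ?_ (le_max_left _ _)
      refine le_trans ?_ hPc
      have hpP' : p ≤ P1 := by omega
      have hp0 : (0 : ℝ) < p := by exact_mod_cast hp.pos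
      apply mul_le_mul
      · exact Real.rpow_le_rpow hp0.le (by exact_mod_cast hpP') hc0.le
      · apply omg_mono hK0 (rho_pos E p hp)
        apply Real.rpow_le_rpow_of_nonpos (by norm_num) (by exact_mod_cast hp.two_le)
        have : 0 < 1 / (E : ℝ) := by positivity
        linarith
      · exact (omg_pos hK0 (rho_pos E p hp)).le
      · positivity
  · intro p hp hpP
    refine ⟨hlarge p hp hpP, ?_⟩
    have hp0 : (0 : ℝ) < p := by exact_mod_cast hp.pos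
    have hp1 : (1 : ℝ) ≤ p := by exact_mod_cast hp.one_le
    have h1 := hbig p hpP
    have h2 : (p : ℝ) ^ (-(1 / (E : ℝ))) ≤ (p : ℝ) ^ (-(1 / (2 * E : ℝ))) := by
      apply Real.rpow_le_rpow_of_exponent_le hp1
      apply neg_le_neg
      apply one_div_le_one_div_of_le hE0
      linarith
    have h3 : (0 : ℝ) < (p : ℝ) ^ (-(1 / (2 * E : ℝ))) := by positivity
    nlinarith

/-- Arithmetic output for polynomials that are odd about a point. -/
theorem arith_odd (h : ℤ[X]) (hk : 1 ≤ h.natDegree) (hpos : 0 < h.leadingCoeff)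
    (hint : Intersective h) (s : ℤ) (hs : h.comp (C s - X) = -h) :
    ∃ c : ℝ, 0 < c ∧ ∃ Φ : ℝ, 1 ≤ Φ ∧ ∃ u : ℕ → ℤ → ℝ,
      (∀ n x, 1 ≤ n → u n (x + n) = u n x) ∧ (∀ n x, 1 ≤ n → |u n x| ≤ n) ∧
      ∀ Q : ℕ, 1 ≤ Q → FQ h u Q 1 0 = 1 ∧ ∀ (q : ℕ) (a : ℤ), 1 ≤ q → IsCoprime a (q : ℤ) →
        -(Φ * (Q : ℝ) ^ (-c)) ≤ (FQ h u Q q a).re ∧ |(FQ h u Q q a).im| ≤ Φ * (Q : ℝ) ^ (-c) := by
  obtain ⟨lam, r, H, R, hR, a1, a2, a3, a4, a5, a6⟩ := exists_aux h hk hpos hint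
  have hA : AuxData h lam r H R := ⟨hR, a1, a2, a3, a4, a5, a6⟩
  obtain ⟨E, hE, hcg⟩ := complete_general h.natDegree hk
  obtain ⟨K, hK, hEK⟩ := hcg R hR
  obtain ⟨c, P1, x2, hc, hx20, hx21, hall, hlarge⟩ := choose_params E hE K
  have hK0 : (0 : ℝ) ≤ K := Nat.cast_nonneg K
  set v := vv r s E K with hv
  have hv0 : ∀ p x, v p 0 x = 1 := fun p x => rfl
  have hper : ∀ p i x, p.Prime → v p i (x + (p ^ i : ℕ)) = v p i x := fun p i x _ => vv_per r s E K p i x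
  have hmean : ∀ (p i : ℕ) (b : ℤ), p.Prime → 1 ≤ i → bet h v p i 0 b = 0 := by
    intro p i b hp hi
    obtain ⟨i, rfl⟩ : ∃ i', i = i' + 1 := ⟨i - 1, by omega⟩
    obtain ⟨m, -, hm⟩ := lam_prime hA p hp
    rw [hv, bet_succ hs E K p hp, Zc_one hA p hp m hm 0 b _ (Nat.zero_le _),
      Zc_one hA p hp m hm 0 b _ (Nat.zero_le _)]
    simp
  have hbsum : ∀ (p j : ℕ) (b : ℤ) (I : ℕ), p.Prime → ∑ i ∈ range (I + 1), bet h v p i j b =
      (((Zc h r p j b 0).re + ∑ i ∈ range I, (omg K ((p : ℝ) ^ (-(1 / (E : ℝ))))) ^ (i + 1) *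
        ((Zc h r p j b (i + 1)).re - (Zc h r p j b i).re) : ℝ) : ℂ) := by
    intro p j b I hp
    rw [Finset.sum_range_succ', add_comm, hv, bet_zero hs E K p hp]
    push_cast
    congr 1
    refine Finset.sum_congr rfl fun i _ => ?_
    rw [bet_succ hs E K p hp]
    push_cast
    ring
  have hγle : ∀ (p j : ℕ) (b : ℤ) (i : ℕ), |(Zc h r p j b i).re| ≤ 1 := fun p j b i =>
    (Complex.abs_re_le_norm _).trans (Zc_norm_le h r p j b i)
  have hloc : ∀ (p j : ℕ) (b : ℤ), p.Prime → 1 ≤ j → IsCoprime b (p : ℤ) → ∃ t, t ≤ j ∧ 1 ≤ t ∧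
      (∀ i, t ≤ i → (Zc h r p j b i).re = 1) ∧
      (∀ i, i < t → |(Zc h r p j b i).re| ≤ K * ((p : ℝ) ^ (-(1 / (E : ℝ)))) ^ (t - i)) := by
    intro p j b hp hj hb
    obtain ⟨m, hm1, hm⟩ := lam_prime hA p hp
    have hex : ∃ t, j ≤ m * t := ⟨j, Nat.le_mul_of_pos_left j hm1⟩
    classical
    set t := Nat.find hex with ht
    have ht1 : j ≤ m * t := Nat.find_spec hex
    have ht2 : t ≤ j := Nat.find_le (Nat.le_mul_of_pos_left j hm1)
    have ht3 : ∀ i, i < t → m * i < j := fun i hi => by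
      have := Nat.find_min hex hi
      omega
    refine ⟨t, ht2, ?_, ?_, ?_⟩
    · rcases Nat.eq_zero_or_pos t with h0 | h0
      · rw [h0, mul_zero] at ht1; omega
      · exact h0
    · intro i hi
      rw [Zc_one hA p hp m hm j b i (ht1.trans (Nat.mul_le_mul_left m hi))]
      simp
    · intro i hi
      have h1 := Zc_small hA hk hpos E K hE hEK p hp m hm j b hb i (ht3 i hi)
      refine ((Complex.abs_re_le_norm _).trans h1).trans ?_
      apply mul_le_mul_of_nonneg_left _ hK0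
      apply pow_le_pow_of_le_one (rho_pos E p hp).le (rho_lt_one E p hE hp).le
      obtain ⟨w, hw⟩ := Nat.exists_eq_add_of_lt hi
      have h2 := ht3 (t - 1) (by omega)
      have h3 : t - 1 = i + w := by omega
      rw [h3, Nat.mul_add] at h2
      have h4 : w ≤ m * w := Nat.le_mul_of_pos_left w hm1
      omega
  have hpos' : ∀ (p j : ℕ) (b : ℤ) (I : ℕ), p.Prime → 1 ≤ j → IsCoprime b (p : ℤ) → j + 0 ≤ I →
      0 ≤ (∑ i ∈ range (I + 1), bet h v p i j b).re ∧ (∑ i ∈ range (I + 1), bet h v p i j b).im = 0 := by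
    intro p j b I hp hj hb hI
    rw [hbsum p j b I hp]
    refine ⟨?_, Complex.ofReal_im _⟩
    rw [Complex.ofReal_re]
    obtain ⟨t, ht1, -, ht2, ht3⟩ := hloc p j b hp hj hb
    exact local_nonneg hK0 (rho_pos E p hp) (rho_lt_one E p hE hp) (fun i => (Zc h r p j b i).re) t
      ht2 ht3 I (by omega)
  have hsumeq : ∀ (p j : ℕ) (b : ℤ) (I : ℕ), p.Prime →
      ∑ i ∈ range (I + 1), (p : ℝ) ^ (c * i) * ‖bet h v p i j b‖ = |(Zc h r p j b 0).re| +
        ∑ i ∈ range I, ((p : ℝ) ^ c) ^ (i + 1) * |(omg K ((p : ℝ) ^ (-(1 / (E : ℝ))))) ^ (i + 1) *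
        ((Zc h r p j b (i + 1)).re - (Zc h r p j b i).re)| := by
    intro p j b I hp
    rw [Finset.sum_range_succ', add_comm, hv, bet_zero hs E K p hp, Complex.norm_real]
    congr 1
    · simp
    · refine Finset.sum_congr rfl fun i _ => ?_
      rw [bet_succ hs E K p hp, Complex.norm_real, Real.norm_eq_abs]
      congr 1
      rw [Real.rpow_mul (Nat.cast_nonneg p), Real.rpow_natCast]
  have hw0 : ∀ p : ℕ, p.Prime → 0 ≤ omg K ((p : ℝ) ^ (-(1 / (E : ℝ)))) := fun p hp =>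
    (omg_pos hK0 (rho_pos E p hp)).le
  set Φ := 1 + 2 * (x2 / (1 - x2)) with hΦ
  have h1x : 0 < 1 - x2 := by linarith
  have hΦ1 : 1 ≤ Φ := by
    have : 0 ≤ x2 / (1 - x2) := by positivity
    rw [hΦ]; linarith
  have hsum : ∀ (p j : ℕ) (b : ℤ) (I : ℕ), p.Prime → 1 ≤ j → IsCoprime b (p : ℤ) →
      ∑ i ∈ range (I + 1), (p : ℝ) ^ (c * i) * ‖bet h v p i j b‖ ≤ Φ := by
    intro p j b I hp _ _
    rw [hsumeq p j b I hp]
    have h1 := local_sum_le (hw0 p hp) (y := (p : ℝ) ^ c) (by positivity) x2 (hall p hp) hx21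
      (fun i => (Zc h r p j b i).re) (hγle p j b) I
    have h2 := hγle p j b 0
    linarith
  have hsum1 : ∀ (p j : ℕ) (b : ℤ) (I : ℕ), p.Prime → P1 ≤ p → 1 ≤ j → IsCoprime b (p : ℤ) →
      ∑ i ∈ range (I + 1), (p : ℝ) ^ (c * i) * ‖bet h v p i j b‖ ≤ 1 := by
    intro p j b I hp hpP hj hb
    rw [hsumeq p j b I hp]
    obtain ⟨l1, l2⟩ := hlarge p hp hpP
    have h1 := local_sum_le (hw0 p hp) (y := (p : ℝ) ^ c) (by positivity) (1 / 5) l1 (by norm_num)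
      (fun i => (Zc h r p j b i).re) (hγle p j b) I
    obtain ⟨t, -, ht1, -, ht3⟩ := hloc p j b hp hj hb
    have h2 := ht3 0 (by omega)
    have h3 : K * ((p : ℝ) ^ (-(1 / (E : ℝ)))) ^ (t - 0) ≤ K * ((p : ℝ) ^ (-(1 / (E : ℝ)))) ^ 1 := by
      apply mul_le_mul_of_nonneg_left _ hK0
      exact pow_le_pow_of_le_one (rho_pos E p hp).le (rho_lt_one E p hE hp).le (by omega)
    rw [pow_one] at h3
    have h4 : (2 : ℝ) * (1 / 5 / (1 - 1 / 5)) = 1 / 2 := by norm_num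
    rw [h4] at h1
    linarith
  refine ⟨c, hc, Φ ^ P1, one_le_pow₀ hΦ1, un v, fun n x hn => un_per v hper n hn x,
    fun n x hn => un_abs v (fun p i x hp => vv_abs r s E K hE p hp i x) n hn x, fun Q hQ =>
      ⟨FQ_one h v hv0 hper hmean Q hQ, fun q a hq ha => ?_⟩⟩
  exact FQ_lower h v hv0 hper hmean 0 hpos' c hc P1 Φ hΦ1 hsum hsum1 Q q a hQ hq ha

end Vale.Agent.P042.PS748
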