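import Vale.Agent.P042.PS748.A3

/-! Summation by parts and means of periodic functions. -/

namespace Vale.Agent.P042.PS748

open Finset Polynomial

lemma abel_bound (a w : ℕ → ℂ) (X : ℕ) (T w0 l : ℝ) (hT0 : 0 ≤ T) (hw00 : 0 ≤ w0) (hl0 : 0 ≤ l)
    (hT : ∀ M, M ≤ X → ‖∑ x ∈ range M, a x‖ ≤ T) (hw : ∀ x, x < X → ‖w x‖ ≤ w0)
    (hl : ∀ x, x + 1 < X → ‖w (x + 1) - w x‖ ≤ l) :
    ‖∑ x ∈ range X, a x * w x‖ ≤ T * (w0 + X * l) := by
  rcases Nat.eq_zero_or_pos X with rfl | hX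
  · simp only [range_zero, sum_empty, norm_zero]
    positivity
  have h1 := Finset.sum_range_by_parts w a X
  simp only [smul_eq_mul] at h1
  have h2 : ∑ x ∈ range X, a x * w x = ∑ x ∈ range X, w x * a x :=
    Finset.sum_congr rfl fun x _ => mul_comm _ _
  rw [h2, h1]
  refine (norm_sub_le _ _).trans ?_
  have h3 : ‖w (X - 1) * ∑ i ∈ range X, a i‖ ≤ w0 * T := by
    rw [norm_mul]
    exact mul_le_mul (hw _ (by omega)) (hT X le_rfl) (norm_nonneg _) hw00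
  have h4 : ‖∑ i ∈ range (X - 1), (w (i + 1) - w i) * ∑ j ∈ range (i + 1), a j‖ ≤ X * (l * T) := by
    refine (norm_sum_le _ _).trans ?_
    calc ∑ i ∈ range (X - 1), ‖(w (i + 1) - w i) * ∑ j ∈ range (i + 1), a j‖
        ≤ ∑ i ∈ range (X - 1), l * T := by
          refine Finset.sum_le_sum fun i hi => ?_
          rw [Finset.mem_range] at hi
          rw [norm_mul]
          exact mul_le_mul (hl i (by omega)) (hT _ (by omega)) (norm_nonneg _) hl0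
      _ = ((X - 1 : ℕ) : ℝ) * (l * T) := by rw [Finset.sum_const, card_range, nsmul_eq_mul]
      _ ≤ X * (l * T) := by
          have : ((X - 1 : ℕ) : ℝ) ≤ X := by exact_mod_cast Nat.sub_le X 1
          gcongr
  calc _ ≤ w0 * T + X * (l * T) := add_le_add h3 h4
    _ = T * (w0 + X * l) := by ring

lemma per_partial {L0 : ℕ} (hL : 1 ≤ L0) {a : ℤ → ℂ} (ha : Per L0 a)
    (h0 : ∑ x ∈ range L0, a (x : ℤ) = 0) (W : ℝ) (hW : ∀ x, ‖a x‖ ≤ W) (M : ℕ) :
    ‖∑ x ∈ range M, a (x : ℤ)‖ ≤ L0 * W := by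
  have hW0 : 0 ≤ W := (norm_nonneg _).trans (hW 0)
  have hM : M = L0 * (M / L0) + M % L0 := (Nat.div_add_mod M L0).symm
  rw [hM, Finset.sum_range_add, sum_mul_range]
  have h1 : ∀ j ∈ range (M / L0), ∑ i ∈ range L0, a ((i : ℤ) + L0 * j) = 0 := by
    intro j _
    rw [← h0]
    refine Finset.sum_congr rfl fun i _ => ?_
    apply ha.congr
    exact ⟨j, by ring⟩
  rw [Finset.sum_eq_zero h1, zero_add]
  refine (norm_sum_le _ _).trans ?_
  refine (Finset.sum_le_sum fun (i : ℕ) _ => hW (((L0 * (M / L0) + i : ℕ)) : ℤ)).trans ?_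
  rw [Finset.sum_const, card_range, nsmul_eq_mul]
  have : ((M % L0 : ℕ) : ℝ) ≤ L0 := by exact_mod_cast (Nat.mod_lt M (by omega)).le
  gcongr

lemma norm_mn_le' (L : ℕ) (f : ℤ → ℂ) (W : ℝ) (hW : 0 ≤ W) (hf : ∀ x, ‖f x‖ ≤ W) : ‖mn L f‖ ≤ W := by
  unfold mn
  rw [norm_div, Complex.norm_natCast]
  rcases Nat.eq_zero_or_pos L with rfl | hL
  · simpa using hW
  rw [div_le_iff₀ (by exact_mod_cast hL)]
  refine (norm_sum_le _ _).trans ?_
  refine (Finset.sum_le_sum fun (x : ℕ) _ => hf (x : ℤ)).trans ?_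
  rw [Finset.sum_const, card_range, nsmul_eq_mul, mul_comm]

lemma per_mean_bound {L0 : ℕ} (hL : 1 ≤ L0) {G : ℤ → ℂ} (hG : Per L0 G) (W : ℝ)
    (hW : ∀ x, ‖G x‖ ≤ W) (w : ℕ → ℂ) (X : ℕ) (w0 l : ℝ) (hw00 : 0 ≤ w0) (hl0 : 0 ≤ l)
    (hw : ∀ x, x < X → ‖w x‖ ≤ w0) (hl : ∀ x, x + 1 < X → ‖w (x + 1) - w x‖ ≤ l) :
    ‖∑ x ∈ range X, G (x : ℤ) * w x - mn L0 G * ∑ x ∈ range X, w x‖ ≤
      (L0 * (2 * W)) * (w0 + X * l) := by
  have hW0 : 0 ≤ W := (norm_nonneg _).trans (hW 0)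
  have h1 : ∑ x ∈ range X, G (x : ℤ) * w x - mn L0 G * ∑ x ∈ range X, w x =
      ∑ x ∈ range X, (G (x : ℤ) - mn L0 G) * w x := by
    rw [Finset.mul_sum, ← Finset.sum_sub_distrib]
    exact Finset.sum_congr rfl fun x _ => by ring
  rw [h1]
  apply abel_bound (fun x => G (x : ℤ) - mn L0 G) w X _ w0 l (by positivity) hw00 hl0 _ hw hl
  intro M _
  have hper : Per L0 (fun x => G x - mn L0 G) := by
    intro x
    simp only [hG x]
  refine per_partial hL hper ?_ (2 * W) ?_ M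
  · rw [Finset.sum_sub_distrib, Finset.sum_const, card_range, nsmul_eq_mul]
    unfold mn
    have : (L0 : ℂ) ≠ 0 := by exact_mod_cast (by omega : L0 ≠ 0)
    field_simp
    ring
  · intro x
    refine (norm_sub_le _ _).trans ?_
    have := norm_mn_le' L0 G W hW0 hW
    linarith [hW x]

end Vale.Agent.P042.PS748
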