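import Vale.Agent.P042.PS748.T1

/-! Smooth weights and the comparison with the discrete kernel. -/

namespace Vale.Agent.P042.PS748

open Finset Polynomial

/-- the weights -/
noncomputable def kap (Y : ℕ → ℕ) (X x : ℕ) : ℝ :=
  ((Y (x + 1) : ℝ) - Y x) * (2 * Y X + 1 - Y x - Y (x + 1)) / (Y X : ℝ) ^ 2

lemma sum_Ico_lin (L : ℝ) (a b : ℕ) (hab : a ≤ b) :
    ∑ j ∈ Ico a b, (L - (j : ℝ)) = ((b : ℝ) - a) * (2 * L + 1 - a - b) / 2 := by
  induction b, hab using Nat.le_induction with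
  | base => simp
  | succ b hab ih =>
    rw [Finset.sum_Ico_succ_top hab, ih]
    push_cast
    ring

lemma sum_blocks (Y : ℕ → ℕ) (hY : Monotone Y) (f : ℕ → ℂ) (X : ℕ) :
    ∑ x ∈ range X, ∑ j ∈ Ico (Y x) (Y (x + 1)), f j = ∑ j ∈ Ico (Y 0) (Y X), f j := by
  induction X with
  | zero => simp
  | succ X ih =>
    rw [Finset.sum_range_succ, ih, Finset.sum_Ico_consecutive f (hY (Nat.zero_le _)) (hY (Nat.le_succ _))]

lemma kap_eq (Y : ℕ → ℕ) (hY : Monotone Y) (X x : ℕ) :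
    kap Y X x = 2 / (Y X : ℝ) ^ 2 * ∑ j ∈ Ico (Y x) (Y (x + 1)), ((Y X : ℝ) - (j : ℝ)) := by
  rw [sum_Ico_lin _ _ _ (hY (Nat.le_succ x))]
  unfold kap
  ring

lemma kap_nonneg (Y : ℕ → ℕ) (hY : Monotone Y) (X x : ℕ) (hx : x < X) : 0 ≤ kap Y X x := by
  rw [kap_eq Y hY]
  apply mul_nonneg (by positivity)
  refine Finset.sum_nonneg fun j hj => ?_
  rw [Finset.mem_Ico] at hj
  have h1 : j ≤ Y X := hj.2.le.trans (hY (by omega))
  have h2 : (j : ℝ) ≤ Y X := by exact_mod_cast h1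
  linarith

lemma kap_sum (Y : ℕ → ℕ) (X : ℕ) :
    ∑ x ∈ range X, kap Y X x = ((Y X : ℝ) - Y 0) * (Y X - Y 0 + 1) / (Y X : ℝ) ^ 2 := by
  have h0 := Finset.sum_range_sub
    (fun t : ℕ => -(((Y X : ℝ) - Y t) * (Y X - Y t + 1) / (Y X : ℝ) ^ 2)) X
  have h1 : ∀ x ∈ range X, kap Y X x =
      -(((Y X : ℝ) - Y (x + 1)) * (Y X - Y (x + 1) + 1) / (Y X : ℝ) ^ 2)
      - -(((Y X : ℝ) - Y x) * (Y X - Y x + 1) / (Y X : ℝ) ^ 2) := by
    intro x _
    unfold kap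
    ring
  rw [Finset.sum_congr rfl h1, h0]
  ring

lemma fejer (L : ℕ) (β : ℝ) : 0 ≤ (∑ j ∈ range L, (((L : ℝ) - (j : ℝ) : ℝ) : ℂ) * e (β * j)).re := by
  rcases Nat.eq_zero_or_pos L with rfl | hL
  · simp
  have h1 := sq_expand (fun n : ℕ => e (β * n)) L
  rw [reindex] at h1
  have h2 : ∀ h ∈ Ico 1 L, ∑ n ∈ range (L - h), e (β * ((n + h : ℕ) : ℝ)) * (starRingEnd ℂ) (e (β * (n : ℝ))) =
      (((L : ℝ) - (h : ℝ) : ℝ) : ℂ) * e (β * h) := by
    intro h hh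
    rw [Finset.mem_Ico] at hh
    have h3 : ∀ n ∈ range (L - h), e (β * ((n + h : ℕ) : ℝ)) * (starRingEnd ℂ) (e (β * (n : ℝ))) = e (β * h) := by
      intro n _
      rw [conj_e, ← e_add]
      congr 1
      push_cast
      ring
    rw [Finset.sum_congr rfl h3, Finset.sum_const, card_range, nsmul_eq_mul]
    push_cast [Nat.cast_sub hh.2.le]
    ring
  rw [Finset.sum_congr rfl h2] at h1
  have h4 : ∑ n ∈ range L, ‖e (β * (n : ℝ))‖ ^ 2 = L := by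
    simp [norm_e]
  rw [h4] at h1
  have h5 : ∑ j ∈ range L, (((L : ℝ) - (j : ℝ) : ℝ) : ℂ) * e (β * j) =
      (L : ℂ) + ∑ j ∈ Ico 1 L, (((L : ℝ) - (j : ℝ) : ℝ) : ℂ) * e (β * j) := by
    rw [Finset.range_eq_Ico, Finset.sum_eq_sum_Ico_succ_bot hL]
    simp [e_zero]
  rw [h5, Complex.add_re, Complex.natCast_re]
  have h6 : 0 ≤ ‖∑ n ∈ range L, (fun n : ℕ => e (β * n)) n‖ ^ 2 := by positivity
  have h7 : (0 : ℝ) < L := by exact_mod_cast hL
  linarith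

/-- weighted sum along the sequence -/
noncomputable def VV (Y : ℕ → ℕ) (X : ℕ) (β : ℝ) : ℂ := ∑ x ∈ range X, (kap Y X x : ℂ) * e (β * Y x)

lemma kap_sum_le (Y : ℕ → ℕ) (hY : Monotone Y) (X : ℕ) (hX : 0 < Y X) :
    ∑ x ∈ range X, kap Y X x ≤ 2 := by
  rw [kap_sum]
  have hL0 : (1 : ℝ) ≤ Y X := by exact_mod_cast hX
  have h0 : (Y 0 : ℝ) ≤ Y X := by exact_mod_cast hY (Nat.zero_le X)
  have h00 : (0 : ℝ) ≤ Y 0 := Nat.cast_nonneg _
  rw [div_le_iff₀ (by positivity)]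
  nlinarith

lemma VV_norm_le (Y : ℕ → ℕ) (hY : Monotone Y) (X : ℕ) (hX : 0 < Y X) (β : ℝ) : ‖VV Y X β‖ ≤ 2 := by
  unfold VV
  refine (norm_sum_le _ _).trans ?_
  refine le_trans (le_of_eq ?_) (kap_sum_le Y hY X hX)
  refine Finset.sum_congr rfl fun x hx => ?_
  rw [Finset.mem_range] at hx
  rw [norm_mul, norm_e, mul_one, Complex.norm_real, Real.norm_eq_abs, abs_of_nonneg (kap_nonneg Y hY X x hx)]

lemma norm_e_sub_le (x y : ℝ) : ‖e x - e y‖ ≤ 2 * Real.pi * |x - y| := by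
  have h1 : e x - e y = e y * (e (x - y) - 1) := by
    rw [mul_sub, ← e_add, mul_one]
    congr 2
    ring
  rw [h1, norm_mul, norm_e, one_mul]
  exact norm_e_sub_one_le _

lemma VV_lower (Y : ℕ → ℕ) (hY : Monotone Y) (X : ℕ) (hX : 0 < Y X) (D1 : ℝ) (hD0 : 0 ≤ D1)
    (hD1 : ∀ x, x < X → (Y (x + 1) : ℝ) - Y x ≤ D1) (β : ℝ) :
    -(2 * (Y 0 : ℝ) / Y X + 4 * Real.pi * |β| * D1) ≤ (VV Y X β).re := by
  have hL0 : (0 : ℝ) < Y X := by exact_mod_cast hX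
  have hpi := Real.pi_pos
  set c : ℝ := 2 / (Y X : ℝ) ^ 2 with hc
  have hc0 : 0 < c := by positivity
  set S : ℂ := ∑ x ∈ range X, ∑ j ∈ Ico (Y x) (Y (x + 1)), (((Y X : ℝ) - (j : ℝ) : ℝ) : ℂ) * e (β * j) with hS
  have hdiff : ‖VV Y X β - (c : ℂ) * S‖ ≤ 4 * Real.pi * |β| * D1 := by
    have h1 : VV Y X β - (c : ℂ) * S = ∑ x ∈ range X, ∑ j ∈ Ico (Y x) (Y (x + 1)),
        ((c * ((Y X : ℝ) - (j : ℝ)) : ℝ) : ℂ) * (e (β * Y x) - e (β * j)) := by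
      rw [hS, Finset.mul_sum]
      unfold VV
      rw [← Finset.sum_sub_distrib]
      refine Finset.sum_congr rfl fun x _ => ?_
      rw [kap_eq Y hY, ← hc]
      push_cast
      rw [Finset.mul_sum, Finset.sum_mul, Finset.mul_sum, ← Finset.sum_sub_distrib]
      refine Finset.sum_congr rfl fun j _ => ?_
      ring
    rw [h1]
    refine (norm_sum_le _ _).trans ?_
    calc ∑ x ∈ range X, ‖∑ j ∈ Ico (Y x) (Y (x + 1)),
        ((c * ((Y X : ℝ) - (j : ℝ)) : ℝ) : ℂ) * (e (β * Y x) - e (β * j))‖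
        ≤ ∑ x ∈ range X, kap Y X x * (2 * Real.pi * |β| * D1) := by
          refine Finset.sum_le_sum fun x hx => ?_
          rw [Finset.mem_range] at hx
          refine (norm_sum_le _ _).trans ?_
          rw [kap_eq Y hY, ← hc, Finset.mul_sum, Finset.sum_mul]
          refine Finset.sum_le_sum fun j hj => ?_
          rw [Finset.mem_Ico] at hj
          have h2 : j ≤ Y X := hj.2.le.trans (hY (by omega))
          have h3 : (j : ℝ) ≤ Y X := by exact_mod_cast h2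
          rw [norm_mul, Complex.norm_real, Real.norm_eq_abs,
            abs_of_nonneg (mul_nonneg hc0.le (by linarith))]
          apply mul_le_mul_of_nonneg_left _ (mul_nonneg hc0.le (by linarith))
          refine (norm_e_sub_le _ _).trans ?_
          rw [← mul_sub, abs_mul, ← mul_assoc]
          apply mul_le_mul_of_nonneg_left _ (by positivity)
          have h4 : (Y x : ℝ) ≤ j := by exact_mod_cast hj.1
          have h5 : (j : ℝ) ≤ Y (x + 1) := by exact_mod_cast hj.2.le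
          rw [abs_sub_comm, abs_of_nonneg (by linarith)]
          linarith [hD1 x hx]
      _ = (∑ x ∈ range X, kap Y X x) * (2 * Real.pi * |β| * D1) := by rw [Finset.sum_mul]
      _ ≤ 2 * (2 * Real.pi * |β| * D1) := by
          apply mul_le_mul_of_nonneg_right (kap_sum_le Y hY X hX) (by positivity)
      _ = 4 * Real.pi * |β| * D1 := by ring
  have hSre : -((Y 0 : ℝ) * Y X) ≤ S.re := by
    have h1 := sum_blocks Y hY (fun j => (((Y X : ℝ) - (j : ℝ) : ℝ) : ℂ) * e (β * j)) X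
    rw [← hS] at h1
    have h2 : ∑ j ∈ range (Y X), (((Y X : ℝ) - (j : ℝ) : ℝ) : ℂ) * e (β * j) =
        ∑ j ∈ range (Y 0), (((Y X : ℝ) - (j : ℝ) : ℝ) : ℂ) * e (β * j) + S := by
      rw [h1, Finset.range_eq_Ico, Finset.range_eq_Ico,
        Finset.sum_Ico_consecutive _ (Nat.zero_le _) (hY (Nat.zero_le X))]
    have h3 := fejer (Y X) β
    rw [h2, Complex.add_re] at h3
    have h4 : ‖∑ j ∈ range (Y 0), (((Y X : ℝ) - (j : ℝ) : ℝ) : ℂ) * e (β * j)‖ ≤ Y 0 * Y X := by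
      refine (norm_sum_le _ _).trans ?_
      calc ∑ j ∈ range (Y 0), ‖(((Y X : ℝ) - (j : ℝ) : ℝ) : ℂ) * e (β * j)‖
          ≤ ∑ j ∈ range (Y 0), (Y X : ℝ) := by
            refine Finset.sum_le_sum fun j hj => ?_
            rw [Finset.mem_range] at hj
            have h2 : j ≤ Y X := hj.le.trans (hY (Nat.zero_le X))
            have h3 : (j : ℝ) ≤ Y X := by exact_mod_cast h2
            have h4 : (0 : ℝ) ≤ j := Nat.cast_nonneg _
            rw [norm_mul, norm_e, mul_one, Complex.norm_real, Real.norm_eq_abs, abs_of_nonneg (by linarith)]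
            linarith
        _ = _ := by rw [Finset.sum_const, card_range, nsmul_eq_mul]
    have h5 := Complex.re_le_norm (∑ j ∈ range (Y 0), (((Y X : ℝ) - (j : ℝ) : ℝ) : ℂ) * e (β * j))
    linarith
  have h6 := Complex.re_le_norm ((c : ℂ) * S - VV Y X β)
  rw [norm_sub_rev] at h6
  rw [Complex.sub_re, Complex.re_ofReal_mul] at h6
  have h7 : -(2 * (Y 0 : ℝ) / Y X) ≤ c * S.re := by
    have : c * (-((Y 0 : ℝ) * Y X)) = -(2 * (Y 0 : ℝ) / Y X) := by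
      rw [hc]; field_simp
    rw [← this]
    exact mul_le_mul_of_nonneg_left hSre hc0.le
  linarith

/-- size of the weights -/
lemma kap_le (Y : ℕ → ℕ) (hY : Monotone Y) (X : ℕ) (hX : 1 ≤ X) (k : ℕ) (D : ℝ) (hD : 1 ≤ D)
    (hYX : (X : ℝ) ^ (k + 2) ≤ Y X)
    (hD1 : ∀ x, x < X → (Y (x + 1) : ℝ) - Y x ≤ D * (X : ℝ) ^ (k + 1)) (x : ℕ) (hx : x < X) :
    kap Y X x ≤ 3 * D / X := by
  have hX0 : (0 : ℝ) < X := by exact_mod_cast hX
  have hL0 : (0 : ℝ) < Y X := lt_of_lt_of_le (by positivity) hYX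
  have hL1 : (1 : ℝ) ≤ Y X := by
    have : 0 < Y X := by exact_mod_cast hL0
    exact_mod_cast this
  have h1 : (Y x : ℝ) ≤ Y (x + 1) := by exact_mod_cast hY (Nat.le_succ x)
  have h2 : (Y (x + 1) : ℝ) ≤ Y X := by exact_mod_cast hY (by omega : x + 1 ≤ X)
  have h3 : (0 : ℝ) ≤ Y x := Nat.cast_nonneg _
  unfold kap
  rw [div_le_div_iff₀ (by positivity) hX0]
  have h4 := hD1 x hx
  have h5 : D * (X : ℝ) ^ (k + 1) * X = D * (X : ℝ) ^ (k + 2) := by ring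
  calc ((Y (x + 1) : ℝ) - Y x) * (2 * Y X + 1 - Y x - Y (x + 1)) * X
      ≤ (D * (X : ℝ) ^ (k + 1)) * (3 * Y X) * X := by
        gcongr
        · linarith
        · linarith
    _ = 3 * D * ((X : ℝ) ^ (k + 2)) * Y X := by ring
    _ ≤ 3 * D * (Y X) * Y X := by gcongr
    _ = 3 * D * (Y X : ℝ) ^ 2 := by ring

lemma kap_diff (Y : ℕ → ℕ) (hY : Monotone Y) (X : ℕ) (hX : 1 ≤ X) (k : ℕ) (D : ℝ) (hD : 1 ≤ D)
    (hYX : (X : ℝ) ^ (k + 2) ≤ Y X)
    (hD1 : ∀ x, x < X → (Y (x + 1) : ℝ) - Y x ≤ D * (X : ℝ) ^ (k + 1))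
    (hD2 : ∀ x, x + 1 < X → |((Y (x + 2) : ℝ) - Y (x + 1)) - (Y (x + 1) - Y x)| ≤ D * (X : ℝ) ^ k)
    (x : ℕ) (hx : x + 1 < X) :
    |kap Y X (x + 1) - kap Y X x| ≤ 5 * D ^ 2 / (X : ℝ) ^ 2 := by
  have hX0 : (0 : ℝ) < X := by exact_mod_cast hX
  have hL0 : (0 : ℝ) < Y X := lt_of_lt_of_le (by positivity) hYX
  have hL1 : (1 : ℝ) ≤ Y X := by
    have : 0 < Y X := by exact_mod_cast hL0
    exact_mod_cast this
  have h1 : (Y x : ℝ) ≤ Y (x + 1) := by exact_mod_cast hY (Nat.le_succ x)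
  have h1' : (Y (x + 1) : ℝ) ≤ Y (x + 2) := by exact_mod_cast hY (Nat.le_succ (x + 1))
  have h2 : (Y (x + 2) : ℝ) ≤ Y X := by exact_mod_cast hY (by omega : x + 2 ≤ X)
  have h3 : (0 : ℝ) ≤ Y x := Nat.cast_nonneg _
  have e1 := hD1 x (by omega)
  have e2 := hD1 (x + 1) hx
  have e3 := hD2 x hx
  have h4 : kap Y X (x + 1) - kap Y X x =
      ((((Y (x + 2) : ℝ) - Y (x + 1)) - (Y (x + 1) - Y x)) * (2 * Y X + 1 - Y (x + 1) - Y (x + 2)) +
      ((Y (x + 1) : ℝ) - Y x) * (-((Y (x + 2) : ℝ) - Y x))) / (Y X : ℝ) ^ 2 := by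
    unfold kap
    ring
  rw [h4, abs_div, abs_of_pos (by positivity : (0 : ℝ) < (Y X : ℝ) ^ 2),
    div_le_div_iff₀ (by positivity) (by positivity)]
  have h5 : |(((Y (x + 2) : ℝ) - Y (x + 1)) - (Y (x + 1) - Y x)) * (2 * Y X + 1 - Y (x + 1) - Y (x + 2)) +
      ((Y (x + 1) : ℝ) - Y x) * (-((Y (x + 2) : ℝ) - Y x))| ≤
      (D * (X : ℝ) ^ k) * (3 * Y X) + (D * (X : ℝ) ^ (k + 1)) * (2 * (D * (X : ℝ) ^ (k + 1))) := by
    refine (abs_add_le _ _).trans ?_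
    rw [abs_mul, abs_mul]
    apply add_le_add
    · apply mul_le_mul e3 _ (abs_nonneg _) (by positivity)
      rw [abs_of_nonneg (by linarith)]
      linarith
    · apply mul_le_mul _ _ (abs_nonneg _) (by positivity)
      · rw [abs_of_nonneg (by linarith)]; exact e1
      · rw [abs_neg, abs_of_nonneg (by linarith)]
        have e2' : (Y (x + 2) : ℝ) - Y (x + 1) ≤ D * (X : ℝ) ^ (k + 1) := e2
        linarith
  calc _ ≤ ((D * (X : ℝ) ^ k) * (3 * Y X) + (D * (X : ℝ) ^ (k + 1)) * (2 * (D * (X : ℝ) ^ (k + 1)))) *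
        (X : ℝ) ^ 2 := by gcongr
    _ = 3 * D * ((X : ℝ) ^ (k + 2)) * Y X + 2 * D ^ 2 * ((X : ℝ) ^ (k + 2)) * (X : ℝ) ^ (k + 2) := by ring
    _ ≤ 3 * D ^ 2 * (Y X) * Y X + 2 * D ^ 2 * (Y X) * Y X := by
        have : D ≤ D ^ 2 := by nlinarith
        gcongr
    _ = 5 * D ^ 2 * (Y X : ℝ) ^ 2 := by ring

end Vale.Agent.P042.PS748
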