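import Vale.Agent.P042.PS748.T2

/-! The integral identity. -/

namespace Vale.Agent.P042.PS748

open Finset Polynomial MeasureTheory intervalIntegral

lemma re_e_ge (x : ℝ) (h0 : 0 ≤ x) (h1 : x ≤ 1 / 8) : Real.sqrt 2 / 2 ≤ (e x).re := by
  have h2 : (e x).re = Real.cos (2 * Real.pi * x) := by
    unfold e
    rw [Complex.exp_ofReal_mul_I_re]
  rw [h2, ← Real.cos_pi_div_four]
  have hpi := Real.pi_pos
  apply Real.cos_le_cos_of_nonneg_of_le_pi
  · positivity
  · linarith
  · nlinarith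

/-- if a trigonometric polynomial with frequencies outside `A - A` is bounded below by `-δ`
and is at least `1/2` near `0`, then `A` is small -/
theorem integral_part (A : Finset ℤ) (N : ℕ) (hN : 1 ≤ N) (hA : A ⊆ Finset.Icc (1 : ℤ) N)
    (X : ℕ) (c : ℕ → ℝ) (y : ℕ → ℤ) (hfree : ∀ x, x < X → ∀ a ∈ A, ∀ b ∈ A, a ≠ b + y x)
    (δ : ℝ) (hδ : 0 ≤ δ)
    (hlow : ∀ θ : ℝ, -δ ≤ (∑ x ∈ range X, (c x : ℂ) * e (y x * θ)).re)
    (hbig : ∀ θ : ℝ, 0 ≤ θ → θ ≤ 1 / (8 * (N : ℝ)) →
      1 / 2 ≤ (∑ x ∈ range X, (c x : ℂ) * e (y x * θ)).re) :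
    (A.card : ℝ) ≤ 32 * δ * N := by
  have hN0 : (0 : ℝ) < N := by exact_mod_cast hN
  set F : ℝ → ℂ := fts A (fun _ => 1) with hF
  set g : ℝ → ℂ := fun θ => ∑ x ∈ range X, (c x : ℂ) * e (y x * θ) with hg
  have hFc : Continuous F := continuous_fts _ _
  have hgc : Continuous g := by
    apply continuous_finsetSum
    intro x _
    exact continuous_const.mul (continuous_e.comp (by fun_prop))
  -- the integral identity
  have hid : ∫ θ in (0:ℝ)..1, ((‖F θ‖ ^ 2 : ℝ) : ℂ) * g θ = 0 := by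
    have h1 : ∀ θ : ℝ, ((‖F θ‖ ^ 2 : ℝ) : ℂ) * g θ =
        ∑ x ∈ range X, (c x : ℂ) * (((‖F θ‖ ^ 2 : ℝ) : ℂ) * e (y x * θ)) := by
      intro θ
      rw [hg]
      simp only
      rw [Finset.mul_sum]
      exact Finset.sum_congr rfl fun x _ => by ring
    simp_rw [h1]
    rw [intervalIntegral.integral_finsetSum]
    · apply Finset.sum_eq_zero
      intro x hx
      rw [Finset.mem_range] at hx
      rw [intervalIntegral.integral_const_mul, hF, integral_normSq_fts_mul]
      rw [Finset.sum_eq_zero, mul_zero]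
      intro a ha
      apply Finset.sum_eq_zero
      intro b hb
      rw [if_neg (hfree x hx a ha b hb)]
    · intro x _
      apply Continuous.intervalIntegrable
      apply continuous_const.mul
      apply Continuous.mul
      · exact Complex.continuous_ofReal.comp (hFc.norm.pow 2)
      · exact continuous_e.comp (by fun_prop)
  have hid2 : ∫ θ in (0:ℝ)..1, ‖F θ‖ ^ 2 * (g θ).re = 0 := by
    have h1 := intervalIntegral.intervalIntegral_re
      (f := fun θ => ((‖F θ‖ ^ 2 : ℝ) : ℂ) * g θ) (a := (0:ℝ)) (b := 1) (μ := volume) (by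
        apply Continuous.intervalIntegrable
        exact (Complex.continuous_ofReal.comp (hFc.norm.pow 2)).mul hgc)
    rw [hid] at h1
    simp only [map_zero] at h1
    refine Eq.trans ?_ h1
    apply intervalIntegral.integral_congr
    intro θ _
    simp only
    exact (Complex.re_ofReal_mul _ _).symm
  have hpars : ∫ θ in (0:ℝ)..1, ‖F θ‖ ^ 2 = A.card := by
    rw [hF, parseval]
    simp
  have hcont : Continuous (fun θ => ‖F θ‖ ^ 2 * ((g θ).re + δ)) :=
    (hFc.norm.pow 2).mul ((Complex.continuous_re.comp hgc).add continuous_const)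
  have hsum : ∫ θ in (0:ℝ)..1, ‖F θ‖ ^ 2 * ((g θ).re + δ) = δ * A.card := by
    have h1 : ∀ θ : ℝ, ‖F θ‖ ^ 2 * ((g θ).re + δ) = ‖F θ‖ ^ 2 * (g θ).re + δ * ‖F θ‖ ^ 2 := by
      intro θ; ring
    simp_rw [h1]
    rw [intervalIntegral.integral_add, hid2, zero_add, intervalIntegral.integral_const_mul, hpars]
    · exact ((hFc.norm.pow 2).mul (Complex.continuous_re.comp hgc)).intervalIntegrable _ _
    · exact (continuous_const.mul (hFc.norm.pow 2)).intervalIntegrable _ _
  have hnn : ∀ θ : ℝ, 0 ≤ ‖F θ‖ ^ 2 * ((g θ).re + δ) := by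
    intro θ
    have := hlow θ
    apply mul_nonneg (by positivity)
    linarith
  set t : ℝ := 1 / (8 * (N : ℝ)) with ht
  have ht0 : 0 ≤ t := by positivity
  have ht1 : t ≤ 1 := by
    rw [ht, div_le_one (by positivity)]
    have : (1 : ℝ) ≤ N := by exact_mod_cast hN
    linarith
  have hpart : ∫ θ in (0:ℝ)..t, ‖F θ‖ ^ 2 * ((g θ).re + δ) ≤ ∫ θ in (0:ℝ)..1, ‖F θ‖ ^ 2 * ((g θ).re + δ) := by
    rw [← intervalIntegral.integral_add_adjacent_intervals (a := (0:ℝ)) (b := t) (c := 1)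
      (hcont.intervalIntegrable _ _) (hcont.intervalIntegrable _ _)]
    have : 0 ≤ ∫ θ in t..1, ‖F θ‖ ^ 2 * ((g θ).re + δ) :=
      intervalIntegral.integral_nonneg ht1 fun θ _ => hnn θ
    linarith
  have hlower : ∀ θ ∈ Set.Icc (0:ℝ) t, (A.card : ℝ) ^ 2 / 4 ≤ ‖F θ‖ ^ 2 * ((g θ).re + δ) := by
    intro θ hθ
    have h1 : (1 : ℝ) / 2 ≤ (g θ).re := hbig θ hθ.1 hθ.2
    have h2 : (A.card : ℝ) * (Real.sqrt 2 / 2) ≤ ‖F θ‖ := by
      have h3 : (A.card : ℝ) * (Real.sqrt 2 / 2) ≤ (F θ).re := by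
        rw [hF]
        unfold fts
        rw [Complex.re_sum]
        have h4 : ∀ a ∈ A, Real.sqrt 2 / 2 ≤ (1 * e (-(a * θ))).re := by
          intro a ha
          have ha' := Finset.mem_Icc.1 (hA ha)
          have ha0 : (0 : ℝ) ≤ a := by exact_mod_cast (by omega : (0:ℤ) ≤ a)
          have haN : (a : ℝ) ≤ N := by exact_mod_cast ha'.2
          rw [one_mul, ← conj_e, Complex.conj_re]
          apply re_e_ge
          · exact mul_nonneg ha0 hθ.1
          · calc (a : ℝ) * θ ≤ N * t := mul_le_mul haN hθ.2 hθ.1 hN0.le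
              _ = 1 / 8 := by rw [ht]; field_simp
        have := Finset.card_nsmul_le_sum A _ _ h4
        rw [nsmul_eq_mul] at this
        exact this
      exact h3.trans (Complex.re_le_norm _)
    have h5 : (A.card : ℝ) ^ 2 / 2 ≤ ‖F θ‖ ^ 2 := by
      have h6 : ((A.card : ℝ) * (Real.sqrt 2 / 2)) ^ 2 ≤ ‖F θ‖ ^ 2 := by
        apply pow_le_pow_left₀ (by positivity) h2
      have h7 : ((A.card : ℝ) * (Real.sqrt 2 / 2)) ^ 2 = (A.card : ℝ) ^ 2 / 2 := by
        rw [mul_pow, div_pow, Real.sq_sqrt (by norm_num)]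
        ring
      linarith
    nlinarith
  have hint : t * ((A.card : ℝ) ^ 2 / 4) ≤ ∫ θ in (0:ℝ)..t, ‖F θ‖ ^ 2 * ((g θ).re + δ) := by
    have h1 : ∫ θ in (0:ℝ)..t, ((A.card : ℝ) ^ 2 / 4) = t * ((A.card : ℝ) ^ 2 / 4) := by
      rw [intervalIntegral.integral_const, sub_zero, smul_eq_mul]
    rw [← h1]
    exact intervalIntegral.integral_mono_on ht0 (continuous_const.intervalIntegrable _ _)
      (hcont.intervalIntegrable _ _) hlower
  have hfin : t * ((A.card : ℝ) ^ 2 / 4) ≤ δ * A.card := by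
    rw [← hsum]
    exact hint.trans hpart
  rcases Nat.eq_zero_or_pos A.card with h0 | h0
  · rw [h0]
    simp only [Nat.cast_zero]
    positivity
  · have hc0 : (0 : ℝ) < A.card := by exact_mod_cast h0
    rw [ht] at hfin
    have h1 : (A.card : ℝ) * (A.card / (32 * N)) ≤ A.card * δ := by
      calc (A.card : ℝ) * (A.card / (32 * N)) = 1 / (8 * (N : ℝ)) * ((A.card : ℝ) ^ 2 / 4) := by
            field_simp
            ring
        _ ≤ δ * A.card := hfin
        _ = A.card * δ := mul_comm _ _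
    have h2 := le_of_mul_le_mul_left h1 hc0
    rw [div_le_iff₀ (by positivity)] at h2
    linarith

end Vale.Agent.P042.PS748
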