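import Vale.Agent.P042.PS748.T2

/-! Minor arcs. -/

namespace Vale.Agent.P042.PS748

open Finset Polynomial

lemma char_sum (n : ℕ) (hn : 1 ≤ n) (t : ℤ) :
    ∑ b ∈ range n, e ((b : ℝ) * ((t : ℝ) / n)) = if (n : ℤ) ∣ t then (n : ℂ) else 0 := by
  have hn0 : (n : ℝ) ≠ 0 := by exact_mod_cast (by omega : n ≠ 0)
  have h1 : ∀ b ∈ range n, e ((b : ℝ) * ((t : ℝ) / n)) = (e ((t : ℝ) / n)) ^ b := fun b _ => e_nat_mul b _
  rw [Finset.sum_congr rfl h1]
  split_ifs with hd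
  · obtain ⟨m, hm⟩ := hd
    have h2 : e ((t : ℝ) / n) = 1 := by
      rw [hm]
      have : (((n : ℤ) * m : ℤ) : ℝ) / n = (m : ℝ) := by
        push_cast
        field_simp
      rw [this, e_int]
    simp [h2]
  · have h2 : e ((t : ℝ) / n) ≠ 1 := by
      intro h3
      rw [e_eq_one_iff] at h3
      obtain ⟨m, hm⟩ := h3
      apply hd
      refine ⟨m, ?_⟩
      rw [div_eq_iff hn0] at hm
      have h4 : (t : ℝ) = ((n * m : ℤ) : ℝ) := by
        rw [hm]; push_cast; ring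
      exact_mod_cast h4
    rw [geom_sum_eq h2]
    have h3 : (e ((t : ℝ) / n)) ^ n = 1 := by
      rw [← e_nat_mul, mul_div_cancel₀ _ hn0, e_int]
    rw [h3, sub_self, zero_div]

lemma expand_bound (n : ℕ) (hn : 1 ≤ n) {G : ℤ → ℂ} (hG : Per n G) (W : ℝ) (hW : ∀ x, ‖G x‖ ≤ W)
    (f : ℕ → ℂ) (M : ℕ) (S : ℝ)
    (hS : ∀ b, b < n → ‖∑ x ∈ range M, f x * e ((b : ℝ) * ((x : ℝ) / n))‖ ≤ S) :
    ‖∑ x ∈ range M, G (x : ℤ) * f x‖ ≤ n * (W * S) := by
  have hW0 : 0 ≤ W := (norm_nonneg _).trans (hW 0)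
  have hn0 : (n : ℂ) ≠ 0 := by exact_mod_cast (by omega : n ≠ 0)
  set c : ℕ → ℂ := fun b => (∑ z ∈ range n, G (z : ℤ) * e (-((b : ℝ) * ((z : ℝ) / n)))) / n with hc
  have hcb : ∀ b, ‖c b‖ ≤ W := by
    intro b
    rw [hc]
    simp only
    rw [norm_div, Complex.norm_natCast, div_le_iff₀ (by exact_mod_cast hn)]
    refine (norm_sum_le _ _).trans ?_
    calc ∑ z ∈ range n, ‖G (z : ℤ) * e (-((b : ℝ) * ((z : ℝ) / n)))‖ ≤ ∑ z ∈ range n, W := by
          refine Finset.sum_le_sum fun z _ => ?_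
          rw [norm_mul, norm_e, mul_one]
          exact hW _
      _ = W * n := by rw [Finset.sum_const, card_range, nsmul_eq_mul, mul_comm]
  have hexp : ∀ x : ℕ, G (x : ℤ) = ∑ b ∈ range n, c b * e ((b : ℝ) * ((x : ℝ) / n)) := by
    intro x
    have h1 : ∑ b ∈ range n, c b * e ((b : ℝ) * ((x : ℝ) / n)) =
        ∑ z ∈ range n, G (z : ℤ) / n * ∑ b ∈ range n, e ((b : ℝ) * ((((x : ℤ) - (z : ℤ) : ℤ) : ℝ) / n)) := by
      rw [hc]
      simp only
      simp_rw [Finset.sum_div, Finset.sum_mul, Finset.mul_sum]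
      rw [Finset.sum_comm]
      refine Finset.sum_congr rfl fun z _ => Finset.sum_congr rfl fun b _ => ?_
      have h2 : e ((b : ℝ) * ((((x : ℤ) - (z : ℤ) : ℤ) : ℝ) / n)) =
          e (-((b : ℝ) * ((z : ℝ) / n))) * e ((b : ℝ) * ((x : ℝ) / n)) := by
        rw [← e_add]
        congr 1
        push_cast
        ring
      rw [h2]
      ring
    rw [h1]
    have h3 : ∀ z ∈ range n, G (z : ℤ) / n * ∑ b ∈ range n, e ((b : ℝ) * ((((x : ℤ) - (z : ℤ) : ℤ) : ℝ) / n)) =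
        if z = x % n then G (x : ℤ) else 0 := by
      intro z hz
      rw [Finset.mem_range] at hz
      rw [char_sum n hn]
      by_cases h4 : z = x % n
      · have h5 : (n : ℤ) ∣ (x : ℤ) - (z : ℤ) := by
          rw [h4]
          push_cast
          exact Int.dvd_self_sub_emod
        rw [if_pos h5, if_pos h4, div_mul_cancel₀ _ hn0]
        have h6 := hG.congr h5
        exact h6.symm
      · have h5 : ¬ (n : ℤ) ∣ (x : ℤ) - (z : ℤ) := by
          intro h6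
          apply h4
          have h7 : (x : ℤ) % n = (z : ℤ) % n := (Int.modEq_iff_dvd.2 h6).symm
          have h8 : (z : ℤ) % n = z := Int.emod_eq_of_lt (by omega) (by exact_mod_cast hz)
          rw [h8] at h7
          exact_mod_cast h7.symm
        rw [if_neg h5, if_neg h4, mul_zero]
    rw [Finset.sum_congr rfl h3, Finset.sum_ite_eq', if_pos]
    exact Finset.mem_range.2 (Nat.mod_lt _ (by omega))
  have h1 : ∑ x ∈ range M, G (x : ℤ) * f x =
      ∑ b ∈ range n, c b * ∑ x ∈ range M, f x * e ((b : ℝ) * ((x : ℝ) / n)) := by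
    simp_rw [hexp, Finset.sum_mul, Finset.mul_sum]
    rw [Finset.sum_comm]
    refine Finset.sum_congr rfl fun b _ => Finset.sum_congr rfl fun x _ => by ring
  rw [h1]
  refine (norm_sum_le _ _).trans ?_
  calc ∑ b ∈ range n, ‖c b * ∑ x ∈ range M, f x * e ((b : ℝ) * ((x : ℝ) / n))‖
      ≤ ∑ b ∈ range n, W * S := by
        refine Finset.sum_le_sum fun b hb => ?_
        rw [norm_mul]
        exact mul_le_mul (hcb b) (hS b (Finset.mem_range.1 hb)) (norm_nonneg _) hW0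
    _ = n * (W * S) := by rw [Finset.sum_const, card_range, nsmul_eq_mul]

lemma minor_weyl (k C : ℕ) (hC : 1 ≤ C) (hW : WeylStmt (k + 2) C) (h : ℤ[X])
    (hdeg : h.natDegree = k + 2) (hlead : 0 < h.leadingCoeff) (θ δ : ℝ) (hδ : 0 < δ) (hδ1 : δ ≤ 1)
    (X M n b : ℕ) (hX : 1 ≤ X) (hMX : M ≤ X)
    (hbig : δ * X < ‖∑ x ∈ range M, e (θ * ((h.eval (x : ℤ) : ℤ) : ℝ)) * e ((b : ℝ) * ((x : ℝ) / n))‖) :
    ∃ (q : ℕ) (a : ℤ), 1 ≤ q ∧ (q : ℝ) ≤ h.leadingCoeff * (C / δ) ^ C ∧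
      |θ - a / q| ≤ (C / δ) ^ C / (δ * X) ^ (k + 2) := by
  have hX0 : (0 : ℝ) < X := by exact_mod_cast hX
  have hC0 : (0 : ℝ) < C := by exact_mod_cast hC
  set p : ℝ[X] := Polynomial.C θ * h.map (Int.castRingHom ℝ) + Polynomial.C ((b : ℝ) / n) * Polynomial.X with hp
  have hev : ∀ x : ℕ, e (θ * ((h.eval (x : ℤ) : ℤ) : ℝ)) * e ((b : ℝ) * ((x : ℝ) / n)) = e (p.eval (x : ℝ)) := by
    intro x
    rw [← e_add]
    congr 1
    rw [hp, eval_add, eval_mul, eval_mul, eval_C, eval_C, eval_X]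
    have : eval (x : ℝ) (h.map (Int.castRingHom ℝ)) = ((h.eval (x : ℤ) : ℤ) : ℝ) := by
      have h1 := Polynomial.eval_intCast_map (Int.castRingHom ℝ) h (x : ℤ)
      simpa using h1
    rw [this]
    ring
  simp_rw [hev] at hbig
  have hdegp : p.natDegree ≤ k + 2 := by
    rw [hp]
    refine (natDegree_add_le _ _).trans (max_le ?_ ?_)
    · refine (natDegree_C_mul_le _ _).trans ?_
      exact (natDegree_map_le).trans hdeg.le
    · refine (natDegree_C_mul_le _ _).trans ?_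
      refine natDegree_X_le.trans (by omega)
  have hM1 : δ * X < M := by
    refine hbig.trans_le ?_
    refine (norm_sum_le _ _).trans ?_
    simp [norm_e]
  have hM0 : (0 : ℝ) < M := lt_of_le_of_lt (by positivity) hM1
  have hM : 1 ≤ M := by exact_mod_cast hM0
  have hbig2 : δ * M ≤ ‖∑ n ∈ Finset.range M, e (p.eval (n : ℝ))‖ := by
    refine le_trans ?_ hbig.le
    have : (M : ℝ) ≤ X := by exact_mod_cast hMX
    gcongr
  obtain ⟨s, hs1, hs2, hs3⟩ := hW p M δ hdegp hM hδ hδ1 hbig2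
  obtain ⟨a, ha⟩ := hs3 (k + 2) (by omega) le_rfl
  have hcoef : p.coeff (k + 2) = θ * h.leadingCoeff := by
    rw [hp, coeff_add, coeff_C_mul, coeff_map, coeff_C_mul, coeff_X, if_neg (by omega)]
    rw [leadingCoeff, hdeg]
    simp
  rw [hcoef] at ha
  have hlc : ((h.leadingCoeff.toNat : ℕ) : ℤ) = h.leadingCoeff := Int.toNat_of_nonneg hlead.le
  have hlcr : ((h.leadingCoeff.toNat : ℕ) : ℝ) = h.leadingCoeff := by exact_mod_cast hlc
  have hl1 : (1 : ℝ) ≤ h.leadingCoeff := by exact_mod_cast hlead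
  have hs0 : (1 : ℝ) ≤ s := by exact_mod_cast hs1
  refine ⟨s * h.leadingCoeff.toNat, a, ?_, ?_, ?_⟩
  · have : 1 ≤ h.leadingCoeff.toNat := by omega
    exact Nat.mul_pos hs1 this
  · push_cast
    rw [hlcr, mul_comm]
    gcongr
  · push_cast
    rw [hlcr]
    have h1 : θ - a / (s * h.leadingCoeff) = (s * (θ * h.leadingCoeff) - a) / (s * h.leadingCoeff) := by
      field_simp
    rw [h1, abs_div, abs_of_pos (by positivity : (0 : ℝ) < s * h.leadingCoeff)]
    have h2 : (1 : ℝ) ≤ s * h.leadingCoeff := by nlinarith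
    calc |(s : ℝ) * (θ * h.leadingCoeff) - a| / (s * h.leadingCoeff)
        ≤ |(s : ℝ) * (θ * h.leadingCoeff) - a| := div_le_self (abs_nonneg _) h2
      _ ≤ (C / δ) ^ C / (M : ℝ) ^ (k + 2) := ha
      _ ≤ (C / δ) ^ C / (δ * X) ^ (k + 2) := by
          gcongr

end Vale.Agent.P042.PS748
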