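import Vale.Agent.P042.PS748.T3
import Vale.Agent.P042.PS748.T4

/-! Minor and major arcs for the weighted sum. -/

namespace Vale.Agent.P042.PS748

open Finset Polynomial

/-- a polynomial with tame values on the nonnegative integers -/
structure SD (h : ℤ[X]) (k : ℕ) (Y : ℕ → ℕ) (D : ℝ) : Prop where
  hY : StrictMono Y
  hev : ∀ x : ℕ, h.eval (x : ℤ) = Y x
  hdeg : h.natDegree = k + 2
  hlead : 0 < h.leadingCoeff
  hY0 : 0 < Y 0
  hD : 1 ≤ D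
  hY0D : (Y 0 : ℝ) ≤ D
  low : ∀ X : ℕ, (X : ℝ) ^ (k + 2) ≤ Y X
  up0 : ∀ X : ℕ, 1 ≤ X → (Y X : ℝ) ≤ D * (X : ℝ) ^ (k + 2)
  up1 : ∀ X x : ℕ, x < X → (Y (x + 1) : ℝ) - Y x ≤ D * (X : ℝ) ^ (k + 1)
  up2 : ∀ X x : ℕ, x + 1 < X → |((Y (x + 2) : ℝ) - Y (x + 1)) - (Y (x + 1) - Y x)| ≤ D * (X : ℝ) ^ k

/-- the weighted exponential sum -/
noncomputable def ff (Y : ℕ → ℕ) (X : ℕ) (u : ℕ → ℤ → ℝ) (Q : ℕ) (θ : ℝ) : ℂ :=
  ∑ n ∈ Icc 1 Q, ∑ x ∈ range X, ((u n x : ℂ) * e (θ * Y x)) * (kap Y X x : ℂ)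

lemma minor_arcs {h : ℤ[X]} {k : ℕ} {Y : ℕ → ℕ} {D : ℝ} (hS : SD h k Y D) (C : ℕ) (hC : 1 ≤ C)
    (hW : WeylStmt (k + 2) C) (B : ℕ) (u : ℕ → ℤ → ℝ) (hper : ∀ n x, 1 ≤ n → u n (x + n) = u n x)
    (hB : ∀ n x, 1 ≤ n → |u n x| ≤ (n : ℝ) ^ B) (Q X : ℕ) (hQ : 1 ≤ Q) (hX : 1 ≤ X) (θ : ℝ)
    (hf : 1 / (Q : ℝ) < ‖ff Y X u Q θ‖) :
    ∃ (q : ℕ) (a : ℤ), 1 ≤ q ∧
      (q : ℝ) ≤ h.leadingCoeff * (C * (8 * D ^ 2 * (Q : ℝ) ^ (B + 3))) ^ C ∧
      |θ - a / q| ≤ (C * (8 * D ^ 2 * (Q : ℝ) ^ (B + 3))) ^ C * (8 * D ^ 2 * (Q : ℝ) ^ (B + 3)) ^ (k + 2) /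
        (X : ℝ) ^ (k + 2) := by
  have hmono := hS.hY.monotone
  have hQ0 : (0 : ℝ) < Q := by exact_mod_cast hQ
  have hQ1 : (1 : ℝ) ≤ Q := by exact_mod_cast hQ
  have hX0 : (0 : ℝ) < X := by exact_mod_cast hX
  have hD := hS.hD
  have hD0 : 0 < D := by linarith
  -- one term is large
  have s1 : ∃ n ∈ Icc 1 Q, 1 / (Q : ℝ) ^ 2 <
      ‖∑ x ∈ range X, ((u n x : ℂ) * e (θ * Y x)) * (kap Y X x : ℂ)‖ := by
    by_contra hcon
    push Not at hcon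
    have h1 : ‖ff Y X u Q θ‖ ≤ 1 / Q := by
      unfold ff
      refine (norm_sum_le _ _).trans ?_
      refine (Finset.sum_le_sum hcon).trans ?_
      rw [Finset.sum_const, Nat.card_Icc, nsmul_eq_mul]
      have : ((Q + 1 - 1 : ℕ) : ℝ) = Q := by simp
      rw [this]
      apply le_of_eq
      field_simp
    linarith
  obtain ⟨n, hn, hn2⟩ := s1
  rw [Finset.mem_Icc] at hn
  have hn0 : (0 : ℝ) < n := by exact_mod_cast hn.1
  have hnQ : (n : ℝ) ≤ Q := by exact_mod_cast hn.2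
  -- summation by parts
  set T : ℝ := X / (8 * D ^ 2 * (Q : ℝ) ^ 2) with hT
  have s2 : ∃ M, M ≤ X ∧ T < ‖∑ x ∈ range M, (u n x : ℂ) * e (θ * Y x)‖ := by
    by_contra hcon
    push Not at hcon
    have h1 := abel_bound (fun x => (u n x : ℂ) * e (θ * Y x)) (fun x => (kap Y X x : ℂ)) X T
      (3 * D / X) (5 * D ^ 2 / (X : ℝ) ^ 2) (by positivity) (by positivity) (by positivity) hcon
      (by
        intro x hx
        rw [Complex.norm_real, Real.norm_eq_abs, abs_of_nonneg (kap_nonneg Y hmono X x hx)]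
        exact kap_le Y hmono X hX k D hD (hS.low X) (fun x hx => hS.up1 X x hx) x hx)
      (by
        intro x hx
        rw [← Complex.ofReal_sub, Complex.norm_real, Real.norm_eq_abs]
        exact kap_diff Y hmono X hX k D hD (hS.low X) (fun x hx => hS.up1 X x hx)
          (fun x hx => hS.up2 X x hx) x hx)
    have h2 : T * (3 * D / X + X * (5 * D ^ 2 / (X : ℝ) ^ 2)) ≤ 1 / (Q : ℝ) ^ 2 := by
      have h3 : T * (3 * D / X + X * (5 * D ^ 2 / (X : ℝ) ^ 2)) =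
          (3 * D + 5 * D ^ 2) / (8 * D ^ 2) * (1 / (Q : ℝ) ^ 2) := by
        rw [hT]; field_simp
      rw [h3]
      have h4 : (3 * D + 5 * D ^ 2) / (8 * D ^ 2) ≤ 1 := by
        rw [div_le_one (by positivity)]
        nlinarith
      calc _ ≤ 1 * (1 / (Q : ℝ) ^ 2) := by gcongr
        _ = _ := one_mul _
    linarith
  obtain ⟨M, hM, hM2⟩ := s2
  -- expansion into characters
  set S : ℝ := T / ((n : ℝ) * (n : ℝ) ^ B) with hSdef
  have s3 : ∃ b, b < n ∧ S < ‖∑ x ∈ range M, e (θ * Y x) * e ((b : ℝ) * ((x : ℝ) / n))‖ := by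
    by_contra hcon
    push Not at hcon
    have h1 := expand_bound n hn.1 (G := fun x => (u n x : ℂ)) (per_ofReal fun x => hper n x hn.1)
      ((n : ℝ) ^ B) (fun x => by
        rw [Complex.norm_real, Real.norm_eq_abs]
        exact hB n x hn.1) (fun x => e (θ * Y x)) M S hcon
    have h2 : (n : ℝ) * ((n : ℝ) ^ B * S) = T := by
      rw [hSdef]; field_simp
    rw [h2] at h1
    linarith
  obtain ⟨b, hb, hb2⟩ := s3
  set δ : ℝ := 1 / (8 * D ^ 2 * (Q : ℝ) ^ (B + 3)) with hδ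
  have hδ0 : 0 < δ := by positivity
  have hδ1 : δ ≤ 1 := by
    rw [hδ, div_le_one (by positivity)]
    have h1 : (1 : ℝ) ≤ (Q : ℝ) ^ (B + 3) := one_le_pow₀ hQ1
    have h2 : (1 : ℝ) ≤ D ^ 2 := one_le_pow₀ hD
    nlinarith
  have hδX : δ * X ≤ S := by
    rw [hSdef, hT, hδ, div_div, one_div_mul_eq_div]
    apply div_le_div_of_nonneg_left hX0.le (by positivity)
    calc 8 * D ^ 2 * (Q : ℝ) ^ 2 * (n * (n : ℝ) ^ B) ≤ 8 * D ^ 2 * (Q : ℝ) ^ 2 * (Q * (Q : ℝ) ^ B) := by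
          gcongr
      _ = 8 * D ^ 2 * (Q : ℝ) ^ (B + 3) := by ring
  have hbig : δ * X < ‖∑ x ∈ range M, e (θ * ((h.eval (x : ℤ) : ℤ) : ℝ)) * e ((b : ℝ) * ((x : ℝ) / n))‖ := by
    refine hδX.trans_lt ?_
    simp_rw [hS.hev]
    push_cast
    exact hb2
  obtain ⟨q, a, hq1, hq2, hq3⟩ := minor_weyl k C hC hW h hS.hdeg hS.hlead θ δ hδ0 hδ1 X M n b hX hM hbig
  have e1 : (C : ℝ) / δ = C * (8 * D ^ 2 * (Q : ℝ) ^ (B + 3)) := by
    rw [hδ]; field_simp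
  rw [e1] at hq2 hq3
  refine ⟨q, a, hq1, hq2, hq3.trans (le_of_eq ?_)⟩
  have hZ : (8 * D ^ 2 * (Q : ℝ) ^ (B + 3)) ≠ 0 := by positivity
  rw [hδ, one_div, mul_pow (8 * D ^ 2 * (Q : ℝ) ^ (B + 3))⁻¹ (X : ℝ), inv_pow, div_eq_mul_inv,
    div_eq_mul_inv, mul_inv, inv_inv]
  ring

lemma FQ_norm_le (h : ℤ[X]) (B : ℕ) (u : ℕ → ℤ → ℝ)
    (hB : ∀ n x, 1 ≤ n → |u n x| ≤ (n : ℝ) ^ B) (Q q : ℕ) (a : ℤ) :
    ‖FQ h u Q q a‖ ≤ (Q : ℝ) ^ (B + 1) := by
  unfold FQ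
  refine (norm_sum_le _ _).trans ?_
  calc ∑ n ∈ Icc 1 Q, ‖mn (n * q) (fun x => (u n x : ℂ) * e (a * ((h.eval x : ℤ) : ℝ) / q))‖
      ≤ ∑ n ∈ Icc 1 Q, (Q : ℝ) ^ B := by
        refine Finset.sum_le_sum fun n hn => ?_
        rw [Finset.mem_Icc] at hn
        have hnQ : (n : ℝ) ≤ Q := by exact_mod_cast hn.2
        apply norm_mn_le' _ _ _ (by positivity)
        intro x
        rw [norm_mul, norm_e, mul_one, Complex.norm_real, Real.norm_eq_abs]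
        exact (hB n x hn.1).trans (by gcongr)
    _ = (Q : ℝ) ^ (B + 1) := by
        rw [Finset.sum_const, Nat.card_Icc, nsmul_eq_mul, pow_succ]
        simp [mul_comm]

lemma major_arcs' {h : ℤ[X]} {k : ℕ} {Y : ℕ → ℕ} {D : ℝ} (hS : SD h k Y D) (B : ℕ)
    (u : ℕ → ℤ → ℝ) (hper : ∀ n x, 1 ≤ n → u n (x + n) = u n x)
    (hB : ∀ n x, 1 ≤ n → |u n x| ≤ (n : ℝ) ^ B) (Q X : ℕ) (hQ : 1 ≤ Q) (hX : 1 ≤ X) (Q2 : ℝ)
    (hQ2 : 1 ≤ Q2) (θ β : ℝ) (q : ℕ) (a : ℤ) (hq : 1 ≤ q) (hqQ : (q : ℝ) ≤ Q2)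
    (hθ : θ = a / q + β) (hβ : |β| ≤ Q2 / (X : ℝ) ^ (k + 2)) :
    ‖ff Y X u Q θ - FQ h u Q q a * VV Y X β‖ ≤ 54 * D ^ 2 * (Q : ℝ) ^ (B + 2) * Q2 ^ 2 / X := by
  have hmono := hS.hY.monotone
  have hQ0 : (0 : ℝ) < Q := by exact_mod_cast hQ
  have hQ1 : (1 : ℝ) ≤ Q := by exact_mod_cast hQ
  have hX0 : (0 : ℝ) < X := by exact_mod_cast hX
  have hD := hS.hD
  have hD0 : 0 < D := by linarith
  have hq0 : (0 : ℝ) < q := by exact_mod_cast hq
  have hpi := Real.pi_pos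
  set l : ℝ := 5 * D ^ 2 / (X : ℝ) ^ 2 + 3 * D / X * (2 * Real.pi * (|β| * (D * (X : ℝ) ^ (k + 1)))) with hl
  have hl0 : 0 ≤ l := by positivity
  have hterm : ∀ n ∈ Icc 1 Q, ‖∑ x ∈ range X, ((u n x : ℂ) * e (θ * Y x)) * (kap Y X x : ℂ) -
      mn (n * q) (fun x => (u n x : ℂ) * e (a * ((h.eval x : ℤ) : ℝ) / q)) * VV Y X β‖ ≤
      (Q * Q2 * (2 * (Q : ℝ) ^ B)) * (3 * D / X + X * l) := by
    intro n hn
    rw [Finset.mem_Icc] at hn
    have hnQ : (n : ℝ) ≤ Q := by exact_mod_cast hn.2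
    have hn0 : (0 : ℝ) < n := by exact_mod_cast hn.1
    set G : ℤ → ℂ := fun x => (u n x : ℂ) * e (a * ((h.eval x : ℤ) : ℝ) / q) with hG
    have hGper : Per (n * q) G := by
      apply Per.mul
      · exact (per_ofReal fun x => hper n x hn.1).dvd (Dvd.intro _ rfl)
      · exact (per_e h a q hq).dvd (Dvd.intro_left _ rfl)
    have hGW : ∀ x, ‖G x‖ ≤ (Q : ℝ) ^ B := by
      intro x
      rw [hG]
      simp only
      rw [norm_mul, norm_e, mul_one, Complex.norm_real, Real.norm_eq_abs]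
      exact (hB n x hn.1).trans (by gcongr)
    have h1 := per_mean_bound (Nat.mul_pos hn.1 hq) hGper ((Q : ℝ) ^ B) hGW
      (fun x => (kap Y X x : ℂ) * e (β * Y x)) X (3 * D / X) l (by positivity) hl0
      (by
        intro x hx
        rw [norm_mul, norm_e, mul_one, Complex.norm_real, Real.norm_eq_abs,
          abs_of_nonneg (kap_nonneg Y hmono X x hx)]
        exact kap_le Y hmono X hX k D hD (hS.low X) (fun x hx => hS.up1 X x hx) x hx)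
      (by
        intro x hx
        have h2 : (kap Y X (x + 1) : ℂ) * e (β * Y (x + 1)) - (kap Y X x : ℂ) * e (β * Y x) =
            ((kap Y X (x + 1) - kap Y X x : ℝ) : ℂ) * e (β * Y (x + 1)) +
            (kap Y X x : ℂ) * (e (β * Y (x + 1)) - e (β * Y x)) := by
          push_cast; ring
        rw [h2]
        refine (norm_add_le _ _).trans (add_le_add ?_ ?_)
        · rw [norm_mul, norm_e, mul_one, Complex.norm_real, Real.norm_eq_abs]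
          exact kap_diff Y hmono X hX k D hD (hS.low X) (fun x hx => hS.up1 X x hx)
            (fun x hx => hS.up2 X x hx) x hx
        · rw [norm_mul, Complex.norm_real, Real.norm_eq_abs, abs_of_nonneg (kap_nonneg Y hmono X x (by omega))]
          apply mul_le_mul (kap_le Y hmono X hX k D hD (hS.low X) (fun x hx => hS.up1 X x hx) x (by omega))
            _ (norm_nonneg _) (by positivity)
          refine (norm_e_sub_le _ _).trans ?_
          apply mul_le_mul_of_nonneg_left _ (by positivity)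
          rw [← mul_sub, abs_mul]
          apply mul_le_mul_of_nonneg_left _ (abs_nonneg _)
          have h3 : (Y x : ℝ) ≤ Y (x + 1) := by exact_mod_cast hmono (Nat.le_succ x)
          rw [abs_of_nonneg (by linarith)]
          exact hS.up1 X x (by omega))
    have h4 : ∑ x ∈ range X, ((u n x : ℂ) * e (θ * Y x)) * (kap Y X x : ℂ) =
        ∑ x ∈ range X, G (x : ℤ) * ((kap Y X x : ℂ) * e (β * Y x)) := by
      refine Finset.sum_congr rfl fun x _ => ?_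
      rw [hG]
      simp only
      rw [hS.hev]
      have h5 : e (θ * Y x) = e (a * (((Y x : ℤ)) : ℝ) / q) * e (β * Y x) := by
        rw [← e_add]
        congr 1
        rw [hθ]
        push_cast
        ring
      rw [h5]
      ring
    rw [h4]
    refine h1.trans ?_
    have h6 : ((n * q : ℕ) : ℝ) ≤ Q * Q2 := by
      push_cast
      gcongr
    gcongr
  have hsum : ff Y X u Q θ - FQ h u Q q a * VV Y X β = ∑ n ∈ Icc 1 Q,
      (∑ x ∈ range X, ((u n x : ℂ) * e (θ * Y x)) * (kap Y X x : ℂ) -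
      mn (n * q) (fun x => (u n x : ℂ) * e (a * ((h.eval x : ℤ) : ℝ) / q)) * VV Y X β) := by
    unfold ff FQ
    rw [Finset.sum_mul, ← Finset.sum_sub_distrib]
  rw [hsum]
  refine (norm_sum_le _ _).trans ?_
  refine (Finset.sum_le_sum hterm).trans ?_
  rw [Finset.sum_const, Nat.card_Icc, nsmul_eq_mul]
  have hcard : ((Q + 1 - 1 : ℕ) : ℝ) = Q := by simp
  rw [hcard]
  have hl2 : X * l ≤ (5 * D ^ 2 + 19 * D ^ 2 * Q2) / X := by
    have h7 : |β| * (X : ℝ) ^ (k + 2) ≤ Q2 := by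
      rwa [le_div_iff₀ (by positivity)] at hβ
    have h8 : X * l = (5 * D ^ 2 + (6 * Real.pi) * D ^ 2 * (|β| * (X : ℝ) ^ (k + 2))) / X := by
      rw [hl]
      field_simp
      ring
    rw [h8]
    have h9 : 6 * Real.pi ≤ 19 := by
      have := Real.pi_lt_d2
      linarith
    gcongr
  have hfin : 3 * D / X + X * l ≤ 27 * D ^ 2 * Q2 / X := by
    calc 3 * D / X + X * l ≤ 3 * D / X + (5 * D ^ 2 + 19 * D ^ 2 * Q2) / X := by gcongr
      _ = (3 * D + 5 * D ^ 2 + 19 * D ^ 2 * Q2) / X := by ring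
      _ ≤ 27 * D ^ 2 * Q2 / X := by
          gcongr
          have h10 : D ≤ D ^ 2 := by nlinarith
          have h11 : D ^ 2 ≤ D ^ 2 * Q2 := by nlinarith [sq_nonneg D]
          nlinarith
  calc (Q : ℝ) * ((Q * Q2 * (2 * (Q : ℝ) ^ B)) * (3 * D / X + X * l))
      ≤ (Q : ℝ) * ((Q * Q2 * (2 * (Q : ℝ) ^ B)) * (27 * D ^ 2 * Q2 / X)) := by gcongr
    _ = 54 * D ^ 2 * (Q : ℝ) ^ (B + 2) * Q2 ^ 2 / X := by ring

end Vale.Agent.P042.PS748
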