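import Vale.Agent.P042.PS748.T5

/-! The transfer theorem for tame polynomials. -/

namespace Vale.Agent.P042.PS748

open Finset Polynomial

/-- denominators that occur -/
noncomputable def QQ (h : ℤ[X]) (k C B : ℕ) (D : ℝ) (Q : ℕ) : ℝ :=
  h.leadingCoeff * (C * (8 * D ^ 2 * (Q : ℝ) ^ (B + 3))) ^ C * (8 * D ^ 2 * (Q : ℝ) ^ (B + 3)) ^ (k + 2)

lemma prod_lower {z w : ℂ} {η ε W : ℝ} (hη : 0 ≤ η) (hε : 0 ≤ ε) (h1 : -η ≤ z.re) (h2 : |z.im| ≤ η)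
    (h3 : ‖z‖ ≤ W) (h4 : ‖w‖ ≤ 2) (h5 : -ε ≤ w.re) : -(4 * η + ε * W) ≤ (z * w).re := by
  have hW : 0 ≤ W := (norm_nonneg z).trans h3
  have a1 := Complex.abs_re_le_norm w
  have a2 := Complex.abs_im_le_norm w
  have a3 := Complex.re_le_norm z
  rw [abs_le] at a1 a2 h2
  rw [Complex.mul_re]
  have hre : -(2 * η + ε * W) ≤ z.re * w.re := by
    rcases le_or_gt 0 z.re with hz | hz
    · rcases le_or_gt 0 w.re with hw | hw
      · have : 0 ≤ z.re * w.re := mul_nonneg hz hw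
        have : 0 ≤ ε * W := mul_nonneg hε hW
        linarith
      · have : z.re * (-w.re) ≤ W * ε :=
          mul_le_mul (a3.trans h3) (by linarith) (by linarith) hW
        nlinarith
    · rcases le_or_gt 0 w.re with hw | hw
      · have : (-z.re) * w.re ≤ η * 2 := mul_le_mul (by linarith) (by linarith) hw hη
        have : 0 ≤ ε * W := mul_nonneg hε hW
        nlinarith
      · have : 0 ≤ (-z.re) * (-w.re) := mul_nonneg (by linarith) (by linarith)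
        have : 0 ≤ ε * W := mul_nonneg hε hW
        nlinarith
  have him : z.im * w.im ≤ 2 * η := by
    have h6 : |z.im * w.im| ≤ η * 2 := by
      rw [abs_mul]
      apply mul_le_mul (abs_le.2 h2) (abs_le.2 ⟨by linarith [a2.1], by linarith [a2.2]⟩) (abs_nonneg _) hη
    linarith [le_abs_self (z.im * w.im)]
  linarith

lemma QQ_ge {h : ℤ[X]} {k : ℕ} {Y : ℕ → ℕ} {D : ℝ} (hS : SD h k Y D) (C B Q : ℕ) (hC : 1 ≤ C)
    (hQ : 1 ≤ Q) :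
    1 ≤ QQ h k C B D Q ∧ h.leadingCoeff * (C * (8 * D ^ 2 * (Q : ℝ) ^ (B + 3))) ^ C ≤ QQ h k C B D Q ∧
    (C * (8 * D ^ 2 * (Q : ℝ) ^ (B + 3))) ^ C * (8 * D ^ 2 * (Q : ℝ) ^ (B + 3)) ^ (k + 2) ≤
      QQ h k C B D Q := by
  have hQ1 : (1 : ℝ) ≤ Q := by exact_mod_cast hQ
  have hC1 : (1 : ℝ) ≤ C := by exact_mod_cast hC
  have hl1 : (1 : ℝ) ≤ h.leadingCoeff := by exact_mod_cast hS.hlead
  have hD := hS.hD
  set Z : ℝ := 8 * D ^ 2 * (Q : ℝ) ^ (B + 3) with hZ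
  have hZ1 : 1 ≤ Z := by
    have h1 : (1 : ℝ) ≤ (Q : ℝ) ^ (B + 3) := one_le_pow₀ hQ1
    have h2 : (1 : ℝ) ≤ D ^ 2 := one_le_pow₀ hD
    rw [hZ]
    nlinarith
  have hCZ : 1 ≤ C * Z := by nlinarith
  have h1 : 1 ≤ (C * Z) ^ C := one_le_pow₀ hCZ
  have h2 : 1 ≤ Z ^ (k + 2) := one_le_pow₀ hZ1
  have h3 : 1 ≤ h.leadingCoeff * (C * Z) ^ C := by nlinarith
  unfold QQ
  rw [← hZ]
  refine ⟨?_, ?_, ?_⟩
  · nlinarith
  · nlinarith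
  · rw [mul_assoc]
    have h4 : 1 ≤ (C * Z) ^ C * Z ^ (k + 2) := by nlinarith
    nlinarith

/-- size of the parameter `X` -/
lemma X_facts {h : ℤ[X]} {k : ℕ} {Y : ℕ → ℕ} {D : ℝ} (hS : SD h k Y D) (C : ℕ) (hC : 1 ≤ C)
    (B Q X : ℕ) (hQ : 1 ≤ Q)
    (hX : 1000 * D ^ 2 * (Q : ℝ) ^ (B + 3) * (QQ h k C B D Q) ^ 2 ≤ X) :
    1 ≤ X ∧ D * 1000 ≤ X ∧ (X : ℝ) ≤ Y X ∧ 0 < Y X ∧
    54 * D ^ 2 * (Q : ℝ) ^ (B + 2) * (QQ h k C B D Q) ^ 2 / X ≤ 54 / 1000 / Q ∧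
    15 * D * (QQ h k C B D Q) / X * (Q : ℝ) ^ (B + 1) ≤ 15 / 1000 / Q := by
  have hmono := hS.hY.monotone
  have hQ0 : (0 : ℝ) < Q := by exact_mod_cast hQ
  have hQ1 : (1 : ℝ) ≤ Q := by exact_mod_cast hQ
  have hD := hS.hD
  have hD0 : 0 < D := by linarith
  obtain ⟨g1, g2, g3⟩ := QQ_ge hS C B Q hC hQ
  set Q2 := QQ h k C B D Q with hQ2
  have e1 : (1 : ℝ) ≤ (Q : ℝ) ^ (B + 3) := one_le_pow₀ hQ1
  have e2 : D ≤ D ^ 2 := by nlinarith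
  have e3 : (1 : ℝ) ≤ Q2 ^ 2 := one_le_pow₀ g1
  have e4 : D ≤ D ^ 2 * (Q : ℝ) ^ (B + 3) := by nlinarith
  have e5 : D ≤ D ^ 2 * (Q : ℝ) ^ (B + 3) * Q2 ^ 2 := by nlinarith
  have e6 : D * 1000 ≤ X := by nlinarith
  have hX0 : (1 : ℝ) ≤ X := by linarith
  have hX1 : 1 ≤ X := by exact_mod_cast hX0
  have hXp : (0 : ℝ) < X := by linarith
  refine ⟨hX1, e6, ?_, lt_of_lt_of_le hS.hY0 (hmono (Nat.zero_le X)), ?_, ?_⟩
  · refine le_trans ?_ (hS.low X)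
    calc (X : ℝ) = (X : ℝ) ^ 1 := (pow_one _).symm
      _ ≤ (X : ℝ) ^ (k + 2) := pow_le_pow_right₀ hX0 (by omega)
  · rw [div_div, div_le_div_iff₀ hXp (by positivity)]
    calc 54 * D ^ 2 * (Q : ℝ) ^ (B + 2) * Q2 ^ 2 * (1000 * (Q : ℝ))
        = 54 * (1000 * D ^ 2 * (Q : ℝ) ^ (B + 3) * Q2 ^ 2) := by ring
      _ ≤ 54 * (X : ℝ) := by gcongr
  · rw [div_div, div_mul_eq_mul_div, div_le_div_iff₀ hXp (by positivity)]
    calc 15 * D * Q2 * (Q : ℝ) ^ (B + 1) * (1000 * (Q : ℝ))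
        = 15 * (1000 * D * (Q : ℝ) ^ (B + 2) * Q2) := by ring
      _ ≤ 15 * (1000 * D ^ 2 * (Q : ℝ) ^ (B + 3) * Q2 ^ 2) := by
          have e1 : D ≤ D ^ 2 := by nlinarith
          have e2 : (Q : ℝ) ^ (B + 2) ≤ (Q : ℝ) ^ (B + 3) := pow_le_pow_right₀ hQ1 (by omega)
          have e3 : Q2 ≤ Q2 ^ 2 := by nlinarith
          gcongr
      _ ≤ 15 * (X : ℝ) := by gcongr

lemma V_low {h : ℤ[X]} {k : ℕ} {Y : ℕ → ℕ} {D : ℝ} (hS : SD h k Y D) (X : ℕ) (hX1 : 1 ≤ X)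
    (hYXr : (X : ℝ) ≤ Y X) (Q2 : ℝ) (g1 : 1 ≤ Q2)
    (β : ℝ) (hβ : |β| ≤ Q2 / (X : ℝ) ^ (k + 2)) : -(15 * D * Q2 / X) ≤ (VV Y X β).re := by
  have hmono := hS.hY.monotone
  have hD := hS.hD
  have hD0 : 0 < D := by linarith
  have hpi := Real.pi_pos
  have hXp : (0 : ℝ) < X := by exact_mod_cast hX1
  have hYX : 0 < Y X := lt_of_lt_of_le hS.hY0 (hmono (Nat.zero_le X))
  have e1 := VV_lower Y hmono X hYX (D * (X : ℝ) ^ (k + 1)) (by positivity)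
    (fun x hx => hS.up1 X x hx) β
  refine le_trans ?_ e1
  apply neg_le_neg
  have e2 : 2 * (Y 0 : ℝ) / Y X ≤ 2 * D * Q2 / X := by
    apply div_le_div₀ (by positivity) _ hXp hYXr
    have := hS.hY0D
    nlinarith
  have e3 : 4 * Real.pi * |β| * (D * (X : ℝ) ^ (k + 1)) ≤ 13 * D * Q2 / X := by
    have e4 : |β| * (X : ℝ) ^ (k + 2) ≤ Q2 := by rwa [le_div_iff₀ (by positivity)] at hβ
    rw [le_div_iff₀ hXp]
    have e5 : 4 * Real.pi ≤ 13 := by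
      have := Real.pi_lt_d2
      linarith
    calc 4 * Real.pi * |β| * (D * (X : ℝ) ^ (k + 1)) * X =
        (4 * Real.pi) * D * (|β| * (X : ℝ) ^ (k + 2)) := by ring
      _ ≤ 13 * D * Q2 := by gcongr
  calc _ ≤ 2 * D * Q2 / X + 13 * D * Q2 / X := add_le_add e2 e3
    _ = 15 * D * Q2 / X := by ring

lemma core_low {h : ℤ[X]} {k : ℕ} {Y : ℕ → ℕ} {D : ℝ} (hS : SD h k Y D) (C : ℕ) (hC : 1 ≤ C)
    (hW : WeylStmt (k + 2) C) (B : ℕ) (u : ℕ → ℤ → ℝ) (hper : ∀ n x, 1 ≤ n → u n (x + n) = u n x)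
    (hB : ∀ n x, 1 ≤ n → |u n x| ≤ (n : ℝ) ^ B) (Q X : ℕ) (hQ : 1 ≤ Q) (η : ℝ) (hη : 0 ≤ η)
    (hF : ∀ (q : ℕ) (a : ℤ), 1 ≤ q → IsCoprime a (q : ℤ) →
      -η ≤ (FQ h u Q q a).re ∧ |(FQ h u Q q a).im| ≤ η)
    (hX : 1000 * D ^ 2 * (Q : ℝ) ^ (B + 3) * (QQ h k C B D Q) ^ 2 ≤ X) (θ : ℝ) :
    -(4 * η + 1 / Q) ≤ (ff Y X u Q θ).re := by
  have hmono := hS.hY.monotone
  have hQ0 : (0 : ℝ) < Q := by exact_mod_cast hQ
  have hQ1 : (1 : ℝ) ≤ Q := by exact_mod_cast hQ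
  have hD0 : 0 < D := by linarith [hS.hD]
  obtain ⟨g1, g2, g3⟩ := QQ_ge hS C B Q hC hQ
  obtain ⟨hX1, -, hYXr, hYX, herr, heps⟩ := X_facts hS C hC B Q X hQ hX
  set Q2 := QQ h k C B D Q with hQ2
  by_cases hcase : ‖ff Y X u Q θ‖ ≤ 1 / Q
  · have e1 := Complex.abs_re_le_norm (ff Y X u Q θ)
    rw [abs_le] at e1
    linarith
  · push Not at hcase
    obtain ⟨q, a, hq1, hq2, hq3⟩ := minor_arcs hS C hC hW B u hper hB Q X hQ hX1 θ hcase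
    obtain ⟨q', a', hq'1, hq'q, hcop, hfr⟩ := exists_reduced q a hq1
    rw [hfr] at hq3
    have hβ : |θ - a' / q'| ≤ Q2 / (X : ℝ) ^ (k + 2) := hq3.trans (by gcongr)
    have hq'Q : (q' : ℝ) ≤ Q2 := by
      have : (q' : ℝ) ≤ q := by exact_mod_cast hq'q
      exact this.trans (hq2.trans g2)
    have e1 := major_arcs' hS B u hper hB Q X hQ hX1 Q2 g1 θ (θ - a' / q') q' a' hq'1 hq'Q
      (by ring) hβ
    obtain ⟨f1, f2⟩ := hF q' a' hq'1 hcop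
    have e2 := prod_lower hη (ε := 15 * D * Q2 / X) (by positivity) f1 f2
      (FQ_norm_le h B u hB Q q' a') (VV_norm_le Y hmono X hYX (θ - a' / q'))
      (V_low hS X hX1 hYXr Q2 g1 _ hβ)
    have e3 := (Complex.abs_re_le_norm _).trans e1
    rw [abs_le, Complex.sub_re] at e3
    have e4 : 54 / 1000 / (Q : ℝ) + 15 / 1000 / Q ≤ 1 / Q := by
      rw [← add_div]
      gcongr
      norm_num
    linarith [e3.1]

lemma core_big {h : ℤ[X]} {k : ℕ} {Y : ℕ → ℕ} {D : ℝ} (hS : SD h k Y D) (C : ℕ) (hC : 1 ≤ C)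
    (B : ℕ) (u : ℕ → ℤ → ℝ) (hper : ∀ n x, 1 ≤ n → u n (x + n) = u n x)
    (hB : ∀ n x, 1 ≤ n → |u n x| ≤ (n : ℝ) ^ B) (Q X N : ℕ) (hQ : 1 ≤ Q)
    (h1 : FQ h u Q 1 0 = 1)
    (hX : 1000 * D ^ 2 * (Q : ℝ) ^ (B + 3) * (QQ h k C B D Q) ^ 2 ≤ X) (hN : Y X ≤ N)
    (θ : ℝ) (h0 : 0 ≤ θ) (hθ : θ ≤ 1 / (8 * (N : ℝ))) :
    1 / 2 ≤ (ff Y X u Q θ).re := by
  have hmono := hS.hY.monotone
  have hQ0 : (0 : ℝ) < Q := by exact_mod_cast hQ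
  have hQ1 : (1 : ℝ) ≤ Q := by exact_mod_cast hQ
  have hD0 : 0 < D := by linarith [hS.hD]
  obtain ⟨g1, g2, g3⟩ := QQ_ge hS C B Q hC hQ
  obtain ⟨hX1, hDX, hYXr, hYX, herr, heps⟩ := X_facts hS C hC B Q X hQ hX
  set Q2 := QQ h k C B D Q with hQ2
  have hXp : (0 : ℝ) < X := by exact_mod_cast hX1
  have hNr : (Y X : ℝ) ≤ N := by exact_mod_cast hN
  have hN0 : (0 : ℝ) < N := by linarith
  have hβ : |θ| ≤ Q2 / (X : ℝ) ^ (k + 2) := by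
    rw [abs_of_nonneg h0]
    refine hθ.trans ?_
    apply div_le_div₀ (by linarith) g1 (by positivity)
    have := hS.low X
    linarith
  have e1 := major_arcs' hS B u hper hB Q X hQ hX1 Q2 g1 θ θ 1 0 le_rfl (by simpa using g1)
    (by simp) hβ
  rw [h1, one_mul] at e1
  have e3 := (Complex.abs_re_le_norm _).trans e1
  rw [abs_le, Complex.sub_re] at e3
  have e2 : Real.sqrt 2 / 2 * ∑ x ∈ range X, kap Y X x ≤ (VV Y X θ).re := by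
    unfold VV
    rw [Complex.re_sum, Finset.mul_sum]
    refine Finset.sum_le_sum fun x hx => ?_
    rw [Finset.mem_range] at hx
    rw [Complex.re_ofReal_mul, mul_comm]
    apply mul_le_mul_of_nonneg_left _ (kap_nonneg Y hmono X x hx)
    have e5 : (Y x : ℝ) ≤ N := by
      have : (Y x : ℝ) ≤ Y X := by exact_mod_cast hmono hx.le
      linarith
    apply re_e_ge
    · positivity
    · calc θ * (Y x : ℝ) ≤ 1 / (8 * (N : ℝ)) * N := by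
            apply mul_le_mul hθ e5 (by positivity) (by positivity)
        _ = 1 / 8 := by field_simp
  have e6 : 99 / 100 ≤ ∑ x ∈ range X, kap Y X x := by
    have hYp : (0 : ℝ) < Y X := by linarith
    rw [kap_sum, le_div_iff₀ (by positivity)]
    have e7 : (Y 0 : ℝ) * 1000 ≤ Y X := by
      have := hS.hY0D
      linarith
    have e9 : (0 : ℝ) ≤ Y 0 := Nat.cast_nonneg _
    have e10 : 999 / 1000 * (Y X : ℝ) ≤ Y X - Y 0 := by linarith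
    calc 99 / 100 * (Y X : ℝ) ^ 2 ≤ (999 / 1000 * (Y X : ℝ)) * (999 / 1000 * (Y X : ℝ)) := by
          ring_nf
          nlinarith [sq_nonneg (Y X : ℝ)]
      _ ≤ ((Y X : ℝ) - Y 0) * (Y X - Y 0 + 1) := by
          apply mul_le_mul e10 (by linarith) (by positivity) (by linarith)
  have e7 : (14 : ℝ) / 10 ≤ Real.sqrt 2 := by
    apply Real.le_sqrt_of_sq_le
    norm_num
  have e8 : 54 / 1000 / (Q : ℝ) ≤ 54 / 1000 := div_le_self (by norm_num) hQ1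
  have e9 : (69 : ℝ) / 100 ≤ Real.sqrt 2 / 2 * ∑ x ∈ range X, kap Y X x := by
    calc (69 : ℝ) / 100 ≤ (14 / 10) / 2 * (99 / 100) := by norm_num
      _ ≤ _ := by gcongr
  linarith [e3.1]

theorem core {h : ℤ[X]} {k : ℕ} {Y : ℕ → ℕ} {D : ℝ} (hS : SD h k Y D) (C : ℕ) (hC : 1 ≤ C)
    (hW : WeylStmt (k + 2) C) (B : ℕ) (u : ℕ → ℤ → ℝ) (hper : ∀ n x, 1 ≤ n → u n (x + n) = u n x)
    (hB : ∀ n x, 1 ≤ n → |u n x| ≤ (n : ℝ) ^ B) (Q X N : ℕ) (hQ : 1 ≤ Q) (η : ℝ) (hη : 0 ≤ η)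
    (h1 : FQ h u Q 1 0 = 1)
    (hF : ∀ (q : ℕ) (a : ℤ), 1 ≤ q → IsCoprime a (q : ℤ) →
      -η ≤ (FQ h u Q q a).re ∧ |(FQ h u Q q a).im| ≤ η)
    (hX : 1000 * D ^ 2 * (Q : ℝ) ^ (B + 3) * (QQ h k C B D Q) ^ 2 ≤ X) (hN : Y X ≤ N)
    (A : Finset ℤ) (hA : A ⊆ Finset.Icc (1 : ℤ) N)
    (hfree : ∀ x : ℕ, ∀ a ∈ A, ∀ b ∈ A, a ≠ b + Y x) :
    (A.card : ℝ) ≤ 32 * (4 * η + 1 / Q) * N := by
  have hlow := core_low hS C hC hW B u hper hB Q X hQ η hη hF hX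
  have hbig := core_big hS C hC B u hper hB Q X N hQ h1 hX hN
  obtain ⟨-, -, -, hYX, -, -⟩ := X_facts hS C hC B Q X hQ hX
  have hN1 : 1 ≤ N := by omega
  have hconv : ∀ θ : ℝ, ff Y X u Q θ =
      ∑ x ∈ range X, ((kap Y X x * ∑ n ∈ Icc 1 Q, u n x : ℝ) : ℂ) * e ((((Y x : ℕ) : ℤ) : ℝ) * θ) := by
    intro θ
    unfold ff
    rw [Finset.sum_comm]
    refine Finset.sum_congr rfl fun x _ => ?_
    push_cast
    rw [Finset.mul_sum, Finset.sum_mul]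
    refine Finset.sum_congr rfl fun n _ => ?_
    rw [mul_comm (Y x : ℝ) θ]
    ring
  simp_rw [hconv] at hlow hbig
  exact integral_part A N hN1 hA X _ (fun x => ((Y x : ℕ) : ℤ)) (fun x _ a ha b hb => hfree x a ha b hb)
    (4 * η + 1 / Q) (by positivity) hlow hbig

end Vale.Agent.P042.PS748
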