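import Vale.Agent.P042.PS748.T6

/-! Shifting a polynomial so that it becomes tame. -/

namespace Vale.Agent.P042.PS748

open Finset Polynomial

lemma taylor_coeff_sum' (r : ℤ) (f : ℤ[X]) (N n : ℕ) (hf : f.natDegree ≤ N) :
    (taylor r f).coeff n =
      ∑ j ∈ Finset.range (N + 1), (j.choose n : ℤ) * r ^ (j - n) * f.coeff j := by
  rw [taylor_coeff, hasseDeriv_apply, Polynomial.sum_over_range' f _ (N+1) (by omega),
    eval_finsetSum]
  · refine Finset.sum_congr rfl fun j _ => ?_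
    simp only [eval_monomial]
    ring
  · intro j; simp only [mul_zero, monomial_zero_right]

lemma exists_shift (h : ℤ[X]) (K : ℕ) (hK : 1 ≤ K) (hdeg : h.natDegree = K)
    (hlead : 0 < h.leadingCoeff) :
    ∃ x0 : ℕ, 1 ≤ x0 ∧ (∀ n, 0 ≤ (taylor (x0 : ℤ) h).coeff n) ∧ 0 < (taylor (x0 : ℤ) h).coeff 0 := by
  obtain ⟨S, hS⟩ : ∃ S : ℕ, (S : ℤ) = ∑ j ∈ range K, 2 ^ K * |h.coeff j| :=
    ⟨(∑ j ∈ range K, 2 ^ K * |h.coeff j|).toNat,
      Int.toNat_of_nonneg (Finset.sum_nonneg fun i _ => by positivity)⟩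
  have hpos : ∀ n, n < K → 0 < (taylor ((S + 1 : ℕ) : ℤ) h).coeff n := by
    intro n hn
    rw [taylor_coeff_sum' _ h K n hdeg.le, Finset.sum_range_succ]
    set x0 : ℤ := ((S + 1 : ℕ) : ℤ) with hx0
    have hx1 : 1 ≤ x0 := by rw [hx0]; push_cast; omega
    have h1 : -(S : ℤ) * x0 ^ (K - 1 - n) ≤ ∑ j ∈ range K, (j.choose n : ℤ) * x0 ^ (j - n) * h.coeff j := by
      rw [hS, neg_mul, Finset.sum_mul, ← Finset.sum_neg_distrib]
      refine Finset.sum_le_sum fun j hj => ?_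
      rw [Finset.mem_range] at hj
      have h2 : |(j.choose n : ℤ) * x0 ^ (j - n) * h.coeff j| ≤ 2 ^ K * |h.coeff j| * x0 ^ (K - 1 - n) := by
        rw [abs_mul, abs_mul, abs_of_nonneg (by positivity : (0 : ℤ) ≤ (j.choose n : ℤ)),
          abs_of_nonneg (by positivity : (0 : ℤ) ≤ x0 ^ (j - n))]
        rcases Nat.lt_or_ge j n with hjn | hjn
        · rw [Nat.choose_eq_zero_of_lt hjn]
          simp only [Nat.cast_zero, zero_mul]
          positivity
        · have h3 : (j.choose n : ℤ) ≤ 2 ^ K := by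
            have h4 : j.choose n ≤ 2 ^ j := Nat.choose_le_two_pow j n
            have h5 : 2 ^ j ≤ 2 ^ K := Nat.pow_le_pow_right (by norm_num) hj.le
            exact_mod_cast h4.trans h5
          have h6 : x0 ^ (j - n) ≤ x0 ^ (K - 1 - n) := pow_le_pow_right₀ hx1 (by omega)
          calc (j.choose n : ℤ) * x0 ^ (j - n) * |h.coeff j|
              ≤ 2 ^ K * x0 ^ (K - 1 - n) * |h.coeff j| := by gcongr
            _ = _ := by ring
      linarith [neg_abs_le ((j.choose n : ℤ) * x0 ^ (j - n) * h.coeff j)]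
    have h2 : x0 * x0 ^ (K - 1 - n) ≤ (K.choose n : ℤ) * x0 ^ (K - n) * h.coeff K := by
      have h3 : K - n = (K - 1 - n) + 1 := by omega
      have h4 : (1 : ℤ) ≤ (K.choose n : ℤ) := by exact_mod_cast Nat.choose_pos hn.le
      have h5 : (1 : ℤ) ≤ h.coeff K := by
        rw [leadingCoeff, hdeg] at hlead
        exact hlead
      have h6 : 0 < x0 ^ (K - n) := by positivity
      calc x0 * x0 ^ (K - 1 - n) = 1 * x0 ^ (K - n) * 1 := by rw [h3, pow_succ]; ring
        _ ≤ (K.choose n : ℤ) * x0 ^ (K - n) * h.coeff K := by gcongr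
    have h3 : 0 < x0 ^ (K - 1 - n) := by positivity
    have h4 : x0 = S + 1 := by rw [hx0]; push_cast; ring
    have h5 : x0 * x0 ^ (K - 1 - n) = S * x0 ^ (K - 1 - n) + x0 ^ (K - 1 - n) := by
      nth_rewrite 1 [h4]
      ring
    linarith
  refine ⟨S + 1, by omega, fun n => ?_, hpos 0 (by omega)⟩
  rcases Nat.lt_or_ge n K with hn | hn
  · exact (hpos n hn).le
  · rcases Nat.eq_or_lt_of_le hn with hn | hn
    · subst hn
      have h1 : (taylor ((S + 1 : ℕ) : ℤ) h).coeff K = h.leadingCoeff := by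
        rw [taylor_coeff_sum' _ h K K hdeg.le, Finset.sum_range_succ, Finset.sum_eq_zero]
        · simp [leadingCoeff, hdeg]
        · intro j hj
          rw [Finset.mem_range] at hj
          rw [Nat.choose_eq_zero_of_lt hj]
          simp
      rw [h1]
      exact hlead.le
    · rw [coeff_eq_zero_of_natDegree_lt]
      rw [natDegree_taylor, hdeg]
      exact hn

lemma nn_eval (g : ℝ[X]) (hg : ∀ i, 0 ≤ g.coeff i) (m : ℕ) (hm : g.natDegree ≤ m) (X x : ℝ)
    (h0 : 0 ≤ x) (hxX : x ≤ X) (hX : 1 ≤ X) : 0 ≤ g.eval x ∧ g.eval x ≤ g.eval 1 * X ^ m := by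
  rw [eval_eq_sum_range' (Nat.lt_succ_of_le hm), eval_eq_sum_range' (Nat.lt_succ_of_le hm)]
  constructor
  · exact Finset.sum_nonneg fun i _ => mul_nonneg (hg i) (by positivity)
  · rw [Finset.sum_mul]
    refine Finset.sum_le_sum fun i hi => ?_
    rw [Finset.mem_range] at hi
    rw [one_pow, mul_one]
    apply mul_le_mul_of_nonneg_left _ (hg i)
    calc x ^ i ≤ X ^ i := pow_le_pow_left₀ h0 hxX i
      _ ≤ X ^ m := pow_le_pow_right₀ hX (by omega)

lemma nn_ge (g : ℝ[X]) (hg : ∀ i, 0 ≤ g.coeff i) (m : ℕ) (hm : g.natDegree ≤ m) (hm1 : 1 ≤ m) (x : ℝ)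
    (h0 : 0 ≤ x) : g.coeff 0 + g.coeff m * x ^ m ≤ g.eval x := by
  rw [eval_eq_sum_range' (Nat.lt_succ_of_le hm)]
  have h1 : ∑ i ∈ ({0, m} : Finset ℕ), g.coeff i * x ^ i ≤ ∑ i ∈ range m.succ, g.coeff i * x ^ i := by
    apply Finset.sum_le_sum_of_subset_of_nonneg
    · intro i hi
      simp only [Finset.mem_insert, Finset.mem_singleton] at hi
      rw [Finset.mem_range]
      omega
    · intro i _ _
      exact mul_nonneg (hg i) (by positivity)
  rw [Finset.sum_pair (by omega)] at h1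
  simpa using h1

lemma nn_dd (g : ℝ[X]) (hg : ∀ i, 0 ≤ g.coeff i) (i : ℕ) : 0 ≤ (dd 1 g).coeff i := by
  unfold dd
  rw [coeff_sub]
  rcases Nat.lt_or_ge g.natDegree i with hi | hi
  · rw [coeff_eq_zero_of_natDegree_lt hi, coeff_eq_zero_of_natDegree_lt (by rwa [natDegree_taylor])]
    simp
  · rw [taylor_coeff_sum 1 g g.natDegree i le_rfl]
    have h1 : g.coeff i ≤ ∑ j ∈ range (g.natDegree + 1), (j.choose i : ℝ) * 1 ^ (j - i) * g.coeff j := by
      have h2 := Finset.single_le_sum (f := fun j => (j.choose i : ℝ) * 1 ^ (j - i) * g.coeff j)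
        (s := range (g.natDegree + 1)) (fun j _ => mul_nonneg (by positivity) (hg j))
        (Finset.mem_range.2 (by omega : i < g.natDegree + 1))
      simpa using h2
    linarith

lemma exists_SD (h : ℤ[X]) (k : ℕ) (hdeg : h.natDegree = k + 2) (hlead : 0 < h.leadingCoeff) :
    ∃ (x0 : ℕ) (Y : ℕ → ℕ) (D : ℝ), 1 ≤ x0 ∧ SD (taylor (x0 : ℤ) h) k Y D := by
  obtain ⟨x0, hx0, hnn, h00⟩ := exists_shift h (k + 2) (by omega) hdeg hlead
  set h1 := taylor (x0 : ℤ) h with hh1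
  have hdeg1 : h1.natDegree = k + 2 := by rw [hh1, natDegree_taylor, hdeg]
  have hlc : h1.leadingCoeff = h.leadingCoeff := by
    rw [hh1, leadingCoeff_taylor]
  set g : ℝ[X] := h1.map (Int.castRingHom ℝ) with hg
  have hgc : ∀ i, g.coeff i = (h1.coeff i : ℝ) := by
    intro i; rw [hg, coeff_map]; rfl
  have hgnn : ∀ i, 0 ≤ g.coeff i := by
    intro i
    rw [hgc]
    exact_mod_cast hnn i
  have hgdeg : g.natDegree ≤ k + 2 := by
    rw [hg]
    exact natDegree_map_le.trans hdeg1.le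
  have hev : ∀ x : ℕ, g.eval (x : ℝ) = ((h1.eval (x : ℤ) : ℤ) : ℝ) := by
    intro x
    rw [hg]
    simp
  have hpos : ∀ x : ℕ, 0 < h1.eval (x : ℤ) := by
    intro x
    have h2 := nn_ge g hgnn (k + 2) hgdeg (by omega) (x : ℝ) (by positivity)
    rw [hev, hgc, hgc] at h2
    have h3 : (0 : ℝ) < h1.coeff 0 := by exact_mod_cast h00
    have h4 : (0 : ℝ) ≤ h1.coeff (k + 2) := by exact_mod_cast hnn (k + 2)
    have h5 : (0 : ℝ) < ((h1.eval (x : ℤ) : ℤ) : ℝ) := by
      have : (0 : ℝ) ≤ h1.coeff (k + 2) * (x : ℝ) ^ (k + 2) := by positivity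
      linarith
    exact_mod_cast h5
  set Y : ℕ → ℕ := fun x => (h1.eval (x : ℤ)).toNat with hY
  have hYz : ∀ x : ℕ, ((Y x : ℕ) : ℤ) = h1.eval (x : ℤ) := fun x => Int.toNat_of_nonneg (hpos x).le
  have hYr : ∀ x : ℕ, (Y x : ℝ) = g.eval (x : ℝ) := by
    intro x
    rw [hev, ← hYz]
    norm_cast
  have hlead1 : (1 : ℝ) ≤ g.coeff (k + 2) := by
    rw [hgc]
    have : h1.coeff (k + 2) = h1.leadingCoeff := by rw [leadingCoeff, hdeg1]
    rw [this, hlc]
    exact_mod_cast hlead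
  -- first differences
  have hdd1 : ∀ x : ℕ, (Y (x + 1) : ℝ) - Y x = (dd 1 g).eval (x : ℝ) := by
    intro x
    rw [dd_eval, hYr, hYr]
    push_cast
    ring
  have hdd2 : ∀ x : ℕ, ((Y (x + 2) : ℝ) - Y (x + 1)) - (Y (x + 1) - Y x) = (dd 1 (dd 1 g)).eval (x : ℝ) := by
    intro x
    rw [dd_eval, ← hdd1, ← Nat.cast_succ, ← hdd1]
  have hn1 := nn_dd g hgnn
  have hn2 := nn_dd (dd 1 g) hn1
  have hd1 : (dd 1 g).natDegree ≤ k + 1 := dd_natDegree 1 g (k + 1) hgdeg
  have hd2 : (dd 1 (dd 1 g)).natDegree ≤ k := dd_natDegree 1 (dd 1 g) k hd1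
  have b0 := (nn_eval g hgnn (k + 2) hgdeg 1 1 (by norm_num) le_rfl le_rfl).1
  have b1 := (nn_eval (dd 1 g) hn1 (k + 1) hd1 1 1 (by norm_num) le_rfl le_rfl).1
  have b2 := (nn_eval (dd 1 (dd 1 g)) hn2 k hd2 1 1 (by norm_num) le_rfl le_rfl).1
  set D : ℝ := 1 + g.eval 1 + (dd 1 g).eval 1 + (dd 1 (dd 1 g)).eval 1 with hD
  refine ⟨x0, Y, D, hx0, ?_, fun x => (hYz x).symm, hdeg1, by rw [hlc]; exact hlead, ?_, by linarith, ?_, ?_,
    ?_, ?_, ?_⟩
  · apply strictMono_nat_of_lt_succ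
    intro x
    have h2 : 0 < (Y (x + 1) : ℝ) - Y x := by
      rw [hdd1]
      have h3 : (dd 1 g).eval 0 ≤ (dd 1 g).eval (x : ℝ) := by
        have h4 := nn_ge (dd 1 g) hn1 (k + 1) hd1 (by omega) (x : ℝ) (by positivity)
        have h5 : (dd 1 g).eval 0 = (dd 1 g).coeff 0 := by rw [coeff_zero_eq_eval_zero]
        have h6 : 0 ≤ (dd 1 g).coeff (k + 1) * (x : ℝ) ^ (k + 1) := mul_nonneg (hn1 _) (by positivity)
        linarith
      have h4 : (dd 1 g).eval 0 = g.eval 1 - g.eval 0 := by rw [dd_eval]; norm_num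
      have h5 := nn_ge g hgnn (k + 2) hgdeg (by omega) 1 (by norm_num)
      rw [coeff_zero_eq_eval_zero] at h5
      simp only [one_pow, mul_one] at h5
      linarith
    have h3 : (Y x : ℝ) < Y (x + 1) := by linarith
    exact_mod_cast h3
  · have := hpos 0
    have h3 := hYz 0
    omega
  · have h2 := (nn_eval g hgnn (k + 2) hgdeg 1 0 le_rfl (by norm_num) le_rfl).2
    have h3 := hYr 0
    rw [Nat.cast_zero] at h3
    rw [h3]
    simp only [one_pow, mul_one] at h2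
    linarith
  · intro X
    rw [hYr]
    have h2 := nn_ge g hgnn (k + 2) hgdeg (by omega) (X : ℝ) (by positivity)
    have h3 : (X : ℝ) ^ (k + 2) ≤ g.coeff (k + 2) * (X : ℝ) ^ (k + 2) := by
      have : (0 : ℝ) ≤ (X : ℝ) ^ (k + 2) := by positivity
      nlinarith
    linarith [hgnn 0]
  · intro X hX
    rw [hYr]
    have hX1 : (1 : ℝ) ≤ X := by exact_mod_cast hX
    refine (nn_eval g hgnn (k + 2) hgdeg X X (by positivity) le_rfl hX1).2.trans ?_
    gcongr
    linarith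
  · intro X x hx
    rw [hdd1]
    have hX1 : (1 : ℝ) ≤ X := by exact_mod_cast (by omega : 1 ≤ X)
    refine (nn_eval (dd 1 g) hn1 (k + 1) hd1 X x (by positivity) (by exact_mod_cast hx.le) hX1).2.trans ?_
    gcongr
    linarith
  · intro X x hx
    rw [hdd2]
    have hX1 : (1 : ℝ) ≤ X := by exact_mod_cast (by omega : 1 ≤ X)
    have h2 := nn_eval (dd 1 (dd 1 g)) hn2 k hd2 X x (by positivity) (by exact_mod_cast (by omega : x ≤ X)) hX1
    rw [abs_of_nonneg h2.1]
    refine h2.2.trans ?_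
    gcongr
    linarith

end Vale.Agent.P042.PS748
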