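import Vale.Agent.P042.PS748.T7

/-! The transfer theorem and the deduction of a power saving. -/

namespace Vale.Agent.P042.PS748

open Finset Polynomial Pointwise

lemma FQ_shift (h : ℤ[X]) (x0 : ℕ) (u : ℕ → ℤ → ℝ) (hper : ∀ n x, 1 ≤ n → u n (x + n) = u n x)
    (Q q : ℕ) (a : ℤ) (hq : 1 ≤ q) :
    FQ (taylor (x0 : ℤ) h) (fun n x => u n (x + x0)) Q q a = FQ h u Q q a := by
  unfold FQ
  refine Finset.sum_congr rfl fun n hn => ?_
  rw [Finset.mem_Icc] at hn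
  have hne : NeZero (n * q) := ⟨Nat.mul_ne_zero (by omega) (by omega)⟩
  have hG : Per (n * q) (fun x => (u n x : ℂ) * e (a * ((h.eval x : ℤ) : ℝ) / q)) := by
    apply Per.mul
    · exact (per_ofReal fun x => hper n x hn.1).dvd (Dvd.intro _ rfl)
    · exact (per_e h a q hq).dvd (Dvd.intro_left _ rfl)
  have h1 := sum_affine hG (x0 : ℤ) 1 isCoprime_one_left
  unfold mn
  rw [← h1]
  congr 1
  refine Finset.sum_congr rfl fun x _ => ?_
  simp only [taylor_eval, one_mul, add_comm (x0 : ℤ)]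

lemma rMax_attained (h : ℤ[X]) (N : ℕ) :
    ∃ A : Finset ℤ, A ⊆ Finset.Icc (1 : ℤ) N ∧ DiffFree h A ∧ A.card = rMax h N := by
  classical
  unfold rMax
  have hne : ((Finset.Icc (1 : ℤ) N).powerset.filter (fun A => DiffFree h A)).Nonempty := by
    refine ⟨∅, ?_⟩
    rw [Finset.mem_filter]
    refine ⟨Finset.empty_mem_powerset _, ?_⟩
    unfold DiffFree
    simp
  obtain ⟨A, hA, hA2⟩ := Finset.exists_mem_eq_sup _ hne Finset.card
  rw [Finset.mem_filter, Finset.mem_powerset] at hA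
  refine ⟨A, hA.1, hA.2, ?_⟩
  rw [← hA2]

lemma rMax_le (h : ℤ[X]) (N : ℕ) : rMax h N ≤ N := by
  obtain ⟨A, hA, -, hc⟩ := rMax_attained h N
  rw [← hc]
  refine (Finset.card_le_card hA).trans ?_
  simp

theorem transfer (h : ℤ[X]) (hk : 2 ≤ h.natDegree) (hlead : 0 < h.leadingCoeff) (B : ℕ) :
    ∃ C : ℕ, 1 ≤ C ∧ ∀ (u : ℕ → ℤ → ℝ) (Q N : ℕ) (η : ℝ), 1 ≤ Q → 0 ≤ η →
      (∀ n x, 1 ≤ n → u n (x + n) = u n x) → (∀ n x, 1 ≤ n → |u n x| ≤ (n : ℝ) ^ B) →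
      FQ h u Q 1 0 = 1 →
      (∀ (q : ℕ) (a : ℤ), 1 ≤ q → IsCoprime a (q : ℤ) →
        -η ≤ (FQ h u Q q a).re ∧ |(FQ h u Q q a).im| ≤ η) →
      C * Q ^ C ≤ N → (rMax h N : ℝ) ≤ C * (η + 1 / Q) * N := by
  obtain ⟨k, hk'⟩ : ∃ k, h.natDegree = k + 2 := ⟨h.natDegree - 2, by omega⟩
  obtain ⟨x0, Y, D, hx0, hS⟩ := exists_SD h k hk' hlead
  obtain ⟨C0, hC0, hW⟩ := weyl (k + 2)
  set h1 := taylor (x0 : ℤ) h with hh1
  have hD := hS.hD
  have hD0 : 0 < D := by linarith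
  -- constants
  set E : ℕ := (B + 3) * (C0 + (k + 2)) with hE
  set K1 : ℝ := h1.leadingCoeff * (C0 * (8 * D ^ 2)) ^ C0 * (8 * D ^ 2) ^ (k + 2) with hK1
  have hQQ : ∀ Q : ℕ, QQ h1 k C0 B D Q = K1 * (Q : ℝ) ^ E := by
    intro Q
    unfold QQ
    have e1 : (C0 : ℝ) * (8 * D ^ 2 * (Q : ℝ) ^ (B + 3)) = (C0 * (8 * D ^ 2)) * (Q : ℝ) ^ (B + 3) := by ring
    rw [e1, mul_pow (C0 * (8 * D ^ 2)) ((Q : ℝ) ^ (B + 3)), mul_pow (8 * D ^ 2) ((Q : ℝ) ^ (B + 3)),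
      ← pow_mul, ← pow_mul, hK1, hE]
    have e2 : (Q : ℝ) ^ ((B + 3) * (C0 + (k + 2))) = (Q : ℝ) ^ ((B + 3) * C0) * (Q : ℝ) ^ ((B + 3) * (k + 2)) := by
      rw [mul_add (B + 3) C0 (k + 2), pow_add]
    rw [e2]
    ring
  have hl1 : (1 : ℝ) ≤ h1.leadingCoeff := by exact_mod_cast hS.hlead
  have hC01 : (1 : ℝ) ≤ C0 := by exact_mod_cast hC0
  have hK11 : 1 ≤ K1 := by
    have := (QQ_ge hS C0 B 1 hC0 le_rfl).1
    rw [hQQ] at this
    simpa using this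
  set K2 : ℝ := D * (2000 * D ^ 2 * K1 ^ 2) ^ (k + 2) with hK2
  set E2 : ℕ := (B + 3 + 2 * E) * (k + 2) with hE2
  obtain ⟨C, hC⟩ := exists_nat_ge (K2 + E2 + 128)
  have hC1 : K2 ≤ C := by
    have : (0 : ℝ) ≤ E2 := Nat.cast_nonneg _
    linarith
  have hK20 : 0 ≤ K2 := by positivity
  have hC2 : E2 ≤ C := by
    have : (E2 : ℝ) ≤ C := by linarith
    exact_mod_cast this
  have hC3 : (128 : ℝ) ≤ C := by
    have : (0 : ℝ) ≤ E2 := Nat.cast_nonneg _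
    linarith
  refine ⟨C, by exact_mod_cast (by linarith : (1 : ℝ) ≤ C), ?_⟩
  intro u Q N η hQ hη hper hB hone hF hN
  have hQ1 : (1 : ℝ) ≤ Q := by exact_mod_cast hQ
  have hQ0 : (0 : ℝ) < Q := by linarith
  obtain ⟨A, hA, hfree, hcard⟩ := rMax_attained h N
  rw [← hcard]
  -- the parameter X
  set R : ℝ := 1000 * D ^ 2 * (Q : ℝ) ^ (B + 3) * (QQ h1 k C0 B D Q) ^ 2 with hR
  have hR1 : 1 ≤ R := by
    have e1 : (1 : ℝ) ≤ (Q : ℝ) ^ (B + 3) := one_le_pow₀ hQ1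
    have e2 : (1 : ℝ) ≤ D ^ 2 := one_le_pow₀ hD
    have e3 : (1 : ℝ) ≤ (QQ h1 k C0 B D Q) ^ 2 := one_le_pow₀ (QQ_ge hS C0 B Q hC0 hQ).1
    have e4 : (1 : ℝ) ≤ D ^ 2 * (Q : ℝ) ^ (B + 3) := by nlinarith
    have e5 : (1 : ℝ) ≤ D ^ 2 * (Q : ℝ) ^ (B + 3) * (QQ h1 k C0 B D Q) ^ 2 := by nlinarith
    rw [hR]
    nlinarith
  set X : ℕ := ⌈R⌉₊ with hX
  have hX1 : R ≤ X := Nat.le_ceil R
  have hX2 : (X : ℝ) ≤ 2 * R := by
    have := Nat.ceil_lt_add_one (by linarith : 0 ≤ R)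
    rw [← hX] at this
    linarith
  have hXone : 1 ≤ X := by
    have : (1 : ℝ) ≤ X := hR1.trans hX1
    exact_mod_cast this
  have hYN : Y X ≤ N := by
    have e1 : (Y X : ℝ) ≤ K2 * (Q : ℝ) ^ E2 := by
      refine (hS.up0 X hXone).trans ?_
      calc D * (X : ℝ) ^ (k + 2) ≤ D * (2 * R) ^ (k + 2) := by gcongr
        _ = D * (2000 * D ^ 2 * K1 ^ 2 * (Q : ℝ) ^ (B + 3 + 2 * E)) ^ (k + 2) := by
            rw [hR, hQQ]
            congr 2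
            rw [mul_pow, ← pow_mul, pow_add (Q : ℝ) (B + 3) (2 * E)]
            ring
        _ = K2 * (Q : ℝ) ^ E2 := by
            rw [mul_pow, hK2, hE2, pow_mul]
            ring
    have e2 : K2 * (Q : ℝ) ^ E2 ≤ C * (Q : ℝ) ^ C := by
      gcongr
    have e3 : (Y X : ℝ) ≤ ((C * Q ^ C : ℕ) : ℝ) := by
      push_cast
      linarith
    have e4 : Y X ≤ C * Q ^ C := by exact_mod_cast e3
    exact e4.trans hN
  have hfree' : ∀ x : ℕ, ∀ a ∈ A, ∀ b ∈ A, a ≠ b + Y x := by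
    intro x a ha b hb hab
    have h2 : h.eval (((x + x0 : ℕ)) : ℤ) = (Y x : ℤ) := by
      have := hS.hev x
      rw [hh1, taylor_eval] at this
      rw [← this]
      push_cast
      rfl
    have h3 : a - b ∈ ((A : Set ℤ) - (A : Set ℤ)) ∩ {m : ℤ | ∃ n : ℕ, 1 ≤ n ∧ h.eval (n : ℤ) = m} := by
      refine ⟨⟨a, ha, b, hb, rfl⟩, x + x0, by omega, ?_⟩
      rw [h2, hab]
      ring
    have h4 := hfree h3
    have h5 : a - b = 0 := h4
    have h6 : 0 < Y x := lt_of_lt_of_le hS.hY0 (hS.hY.monotone (Nat.zero_le x))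
    omega
  have h2 := core hS C0 hC0 hW B (fun n x => u n (x + x0))
    (fun n x hn => by
      show u n (x + n + x0) = u n (x + x0)
      rw [show x + (n : ℤ) + x0 = (x + x0) + n by ring, hper n _ hn])
    (fun n x hn => hB n _ hn) Q X N hQ η hη
    (by rw [FQ_shift h x0 u hper Q 1 0 le_rfl]; exact hone)
    (fun q a hq ha => by rw [FQ_shift h x0 u hper Q q a hq]; exact hF q a hq ha)
    hX1 hYN A hA hfree'
  refine h2.trans ?_
  have hN0 : (0 : ℝ) ≤ N := Nat.cast_nonneg N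
  have h3 : 32 * (4 * η + 1 / (Q : ℝ)) ≤ C * (η + 1 / Q) := by
    have h4 : 0 < 1 / (Q : ℝ) := by positivity
    nlinarith
  exact mul_le_mul_of_nonneg_right h3 hN0

/-- deduction of a power saving -/
theorem power_saving (h : ℤ[X]) (hk : 2 ≤ h.natDegree) (hlead : 0 < h.leadingCoeff) (B : ℕ)
    (c : ℝ) (hc : 0 < c) (Φ : ℝ) (hΦ : 1 ≤ Φ)
    (u : ℕ → ℕ → ℤ → ℝ)
    (hper : ∀ Q n x, 1 ≤ n → u Q n (x + n) = u Q n x) (hB : ∀ Q n x, 1 ≤ n → |u Q n x| ≤ (n : ℝ) ^ B)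
    (hF : ∀ Q : ℕ, 1 ≤ Q → FQ h (u Q) Q 1 0 = 1 ∧ ∀ (q : ℕ) (a : ℤ), 1 ≤ q → IsCoprime a (q : ℤ) →
        -(Φ * (Q : ℝ) ^ (-c)) ≤ (FQ h (u Q) Q q a).re ∧ |(FQ h (u Q) Q q a).im| ≤ Φ * (Q : ℝ) ^ (-c)) :
    ∃ c' : ℝ, 0 < c' ∧ ∃ K : ℝ, 0 < K ∧ ∀ N : ℕ, 1 ≤ N → (rMax h N : ℝ) ≤ K * (N : ℝ) ^ (1 - c') := by
  obtain ⟨C, hC, htr⟩ := transfer h hk hlead B
  set c1 := min c 1 with hc1
  have hc10 : 0 < c1 := lt_min hc one_pos
  have hC0 : (0 : ℝ) < C := by exact_mod_cast hC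
  have hC1 : (1 : ℝ) ≤ C := by exact_mod_cast hC
  set c' := c1 / C with hc'
  have hc'0 : 0 < c' := by positivity
  have hc'1 : c' ≤ 1 := by
    rw [hc', div_le_one hC0]
    exact (min_le_right _ _).trans hC1
  refine ⟨c', hc'0, 2 * C * (2 * (Φ + 1)) * C, by positivity, fun N hN => ?_⟩
  have hN0 : (0 : ℝ) < N := by exact_mod_cast hN
  have hN1 : (1 : ℝ) ≤ N := by exact_mod_cast hN
  have hNsplit : (N : ℝ) ^ (1 - c') = N * (N : ℝ) ^ (-c') := by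
    rw [sub_eq_add_neg, Real.rpow_add hN0, Real.rpow_one]
  rw [hNsplit]
  rcases Nat.lt_or_ge N C with hNC | hNC
  · -- small N
    have h1 : (rMax h N : ℝ) ≤ N := by exact_mod_cast rMax_le h N
    have h2 : 1 ≤ C * (N : ℝ) ^ (-c') := by
      rw [Real.rpow_neg hN0.le, ← div_eq_mul_inv, one_le_div (by positivity)]
      calc (N : ℝ) ^ c' ≤ (N : ℝ) ^ (1 : ℝ) := Real.rpow_le_rpow_of_exponent_le hN1 hc'1
        _ = N := Real.rpow_one _
        _ ≤ C := by exact_mod_cast hNC.le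
    have h3 : 1 ≤ 2 * C * (2 * (Φ + 1)) := by nlinarith
    calc (rMax h N : ℝ) ≤ N := h1
      _ = 1 * N * 1 := by ring
      _ ≤ (2 * C * (2 * (Φ + 1))) * N * (C * (N : ℝ) ^ (-c')) := by gcongr
      _ = _ := by ring
  · -- choice of Q
    have hNC' : (1 : ℝ) ≤ N / C := by
      rw [one_le_div hC0]
      exact_mod_cast hNC
    set z : ℝ := (N / C : ℝ) ^ (1 / (C : ℝ)) with hz
    have hz1 : 1 ≤ z := Real.one_le_rpow hNC' (by positivity)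
    set Q := ⌊z⌋₊ with hQdef
    have hQ1 : 1 ≤ Q := (Nat.one_le_floor_iff _).2 hz1
    have hQz : (Q : ℝ) ≤ z := Nat.floor_le (by linarith)
    have hzQ : z ≤ 2 * Q := by
      have h1 : z < Q + 1 := Nat.lt_floor_add_one z
      have h2 : (1 : ℝ) ≤ Q := by exact_mod_cast hQ1
      linarith
    have hQ0 : (0 : ℝ) < Q := by exact_mod_cast hQ1
    have hQ1r : (1 : ℝ) ≤ Q := by exact_mod_cast hQ1
    have hzC : z ^ C = N / C := by
      rw [hz, ← Real.rpow_natCast, ← Real.rpow_mul (by positivity)]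
      have : 1 / (C : ℝ) * (C : ℕ) = 1 := by field_simp
      rw [this, Real.rpow_one]
    have hQN : C * Q ^ C ≤ N := by
      have h1 : (C : ℝ) * (Q : ℝ) ^ C ≤ N := by
        calc (C : ℝ) * (Q : ℝ) ^ C ≤ C * z ^ C := by gcongr
          _ = N := by rw [hzC]; field_simp
      exact_mod_cast h1
    obtain ⟨hone, hFq⟩ := hF Q hQ1
    have h1 := htr (u Q) Q N (Φ * (Q : ℝ) ^ (-c)) hQ1 (by positivity) (hper Q) (hB Q) hone hFq hQN
    have h2 : Φ * (Q : ℝ) ^ (-c) + 1 / Q ≤ (Φ + 1) * (Q : ℝ) ^ (-c1) := by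
      have e1 : (Q : ℝ) ^ (-c) ≤ (Q : ℝ) ^ (-c1) :=
        Real.rpow_le_rpow_of_exponent_le hQ1r (neg_le_neg (min_le_left _ _))
      have e2 : 1 / (Q : ℝ) ≤ (Q : ℝ) ^ (-c1) := by
        rw [one_div, ← Real.rpow_neg_one]
        exact Real.rpow_le_rpow_of_exponent_le hQ1r (neg_le_neg (min_le_right _ _))
      nlinarith
    have h3 : (Q : ℝ) ^ (-c1) ≤ 2 * z ^ (-c1) := by
      have e1 : (2 * (Q : ℝ)) ^ (-c1) ≤ z ^ (-c1) :=
        Real.rpow_le_rpow_of_nonpos (by linarith) hzQ (by linarith)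
      rw [Real.mul_rpow (by norm_num) hQ0.le] at e1
      have e2 : (1 / 2 : ℝ) ≤ (2 : ℝ) ^ (-c1) := by
        have : (1 / 2 : ℝ) = (2 : ℝ) ^ (-1 : ℝ) := by
          rw [Real.rpow_neg_one]; norm_num
        rw [this]
        exact Real.rpow_le_rpow_of_exponent_le (by norm_num) (neg_le_neg (min_le_right _ _))
      have e3 : 0 < (Q : ℝ) ^ (-c1) := by positivity
      nlinarith
    have h4 : z ^ (-c1) ≤ C * (N : ℝ) ^ (-c') := by
      rw [hz, ← Real.rpow_mul (by positivity)]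
      have e1 : 1 / (C : ℝ) * -c1 = -c' := by rw [hc']; ring
      rw [e1, Real.div_rpow hN0.le hC0.le, div_eq_mul_inv, mul_comm]
      have e2 : ((C : ℝ) ^ (-c'))⁻¹ ≤ C := by
        rw [Real.rpow_neg hC0.le, inv_inv]
        calc (C : ℝ) ^ c' ≤ (C : ℝ) ^ (1 : ℝ) := Real.rpow_le_rpow_of_exponent_le hC1 hc'1
          _ = C := Real.rpow_one _
      gcongr
    calc (rMax h N : ℝ) ≤ C * (Φ * (Q : ℝ) ^ (-c) + 1 / Q) * N := h1
      _ ≤ C * ((Φ + 1) * (2 * (C * (N : ℝ) ^ (-c')))) * N := by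
          gcongr
          refine h2.trans ?_
          gcongr
          refine h3.trans ?_
          gcongr
      _ ≤ 2 * C * (2 * (Φ + 1)) * C * (N * (N : ℝ) ^ (-c')) := by
          have e1 : 0 ≤ C * (Φ + 1) * C * (N * (N : ℝ) ^ (-c')) := by positivity
          nlinarith

end Vale.Agent.P042.PS748
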